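import Vale.Agent.P014Y.Kx.St
import Vale.Agent.P014Y.F.Pt.Kd
import Vale.Agent.P014T.Kx.Tr1
import Vale.Agent.P014T.Kx.Tr2

/-! # P014Y, block K: row TR1 (the trace down the tower) -/

set_option linter.all false

open NumberField Finset
open scoped Classical

noncomputable section

namespace Vale.Agent.P014Y.Kx

open Vale.Agent.P022 Vale.Agent.P004K Vale.Agent.P014U Vale.Agent.P014Y.F
open Vale.Agent.P022E.GW (Ov Fb)
open P004M.TE (Pt ga ga_mul)
open P004F.Qx (dep op gE)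
open P004F.Es (Fr Tq.Bs)
open P014T.Kx.T1 (split tr tr_apply tr_ga tr_op)
open P014T.Kx.Tr (ns)

variable [Pp]

namespace T1

omit [Pp] in
theorem sd1 (g : GQ) : sd 1 g = 1 := P014T.Kx.Tw.sd_eq_one.2 (P004S.nu_one_left g)

omit [Pp] in
theorem tr1 {A B : ℤ} (U : Finset GQ) (y : Pt A B) : tr 1 U y = ∑ g ∈ U, ga g y := by
  simp only [tr_apply, sd1, one_smul]

variable {e : Crv} (b : Fld e) {q : ℕ} {Q : Ideal (𝓞 Qb)} {φ : GQ}

theorem bs (hq : q.Prime) (h2 : q ≠ 2) (hd : ¬ q ∣ b.δ') : ∃ ω u v, Tq.Bs ω b.θ b.δ' q u v := by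
  obtain ⟨ω, h1, h3⟩ := P004K.Rc.iq0 b.j b.iq
  obtain ⟨u, v, e⟩ := h1 b.θ
  refine ⟨ω, u, v, hq, h2, hd, h1, fun x y k => ?_, b.th, e⟩
  have y0 : y = 0 := by
    have := congrArg (fun a => (JJ b.j a).im) k
    simpa [h3.ne'] using this
  exact ⟨by simpa [y0] using k, y0⟩

theorem sq_iff (o : Ov q Q) (f : Fb q Q φ) (h2 : q ≠ 2) (hd : ¬ q ∣ b.δ') :
    IsSquare (-b.δ' : ZMod q) ↔ φ ∈ b.Γ := by
  have := Fact.mk o.1
  have a := P004R.Mu.nu_fb o h2 f fun k => hd (Int.natCast_dvd_natCast.1 (dvd_neg.1 k))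
  refine ⟨fun s => by_contra fun m => ?_, fun m => ?_⟩
  · rw [if_neg (mt (b.kd.gk _).2 m)] at a
    exact ZMod.nonsquare_of_jacobiSym_eq_neg_one a (by simpa using s)
  · rw [if_pos ((b.kd.gk _).1 m)] at a
    simpa using ZMod.isSquare_of_jacobiSym_eq_one a

theorem ex_typ (hq : q.Prime) (h2 : q ≠ 2) (hd : ¬ q ∣ b.δ') : ∃ n, Typ b.K q n := by
  obtain ⟨ω, u, v, h⟩ := bs b hq h2 hd
  by_cases k : IsSquare (-b.δ' : ZMod q)
  · exact ⟨q - 1, hq, .inr ⟨h.split k, Nat.sub_add_cancel hq.one_le⟩⟩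
  · exact ⟨q + 1, hq, .inl ⟨h.inert k, rfl⟩⟩

theorem inr (o : Ov q Q) (f : Fb q Q φ) (h2 : q ≠ 2) (hd : ¬ q ∣ b.δ') (m : φ ∉ b.Γ) :
    (Ideal.span {(q : 𝓞 b.K)}).IsPrime :=
  let ⟨_, _, _, h⟩ := bs b o.1 h2 hd
  h.inert (mt (sq_iff b o f h2 hd).1 m)

/-- the splitting type is read off from the Frobenius element -/
theorem typ {k : ℕ} (o : Ov q Q) (f : Fb q Q φ) (h2 : q ≠ 2) (hd : ¬ q ∣ b.δ') (h : Typ b.K q k) :
    (φ ∈ b.Γ → k + 1 = q) ∧ (φ ∉ b.Γ → k = q + 1) :=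
  let ⟨_, _, _, s⟩ := bs b o.1 h2 hd
  ⟨fun m => (h.2.resolve_left fun k => ns k.1 (s.split ((sq_iff b o f h2 hd).2 m))).2,
    fun m => (h.2.resolve_right fun k => ns (inr b o f h2 hd m) k.1).2⟩

theorem fr {c : ℕ} {T : Finset GQ} (hT : b.Tv c T) : Fr b.Γ (Hc b.j c) T (sd 1) :=
  ⟨inf_le_left, hT.1, hT.2, fun g _ h _ => by simp only [sd1, mul_one], fun h _ => sd1 h⟩

end T1

open T1

/-- the factor of the depletion -/
def nd (e : Crv) : ℤ := (e.w * e.S.prod : ℕ) *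
  (e.S.map fun p : ℕ => (p : ℤ) - e.a p + if p ∣ e.N then 0 else 1).prod

/-- the depletion multiplies the trace by `nd` -/
theorem hp_eq (r1 : RC1) {e : Crv} (b : Fld e) {c : ℕ} (c0 : 0 < c) (cop : c.Coprime e.N)
    {T : Finset GQ} (hT : b.Tv c T) : b.hp T c = nd e • ∑ g ∈ T, ga g (b.Y c) := by
  have k := (tr_op (fr b hT) (r1 _ b.j b.iq _ c0).2.2.2.1 (b.fx _ c0 cop) e.N e.a (S := e.S)
    b.ch.mem).2
  simp only [sd1, mul_one] at k
  rw [Fld.hp, ← tr1, ← tr1, nd, mul_smul, ← k, natCast_zsmul, ← map_nsmul]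
  rfl

theorem hp_one (r1 : RC1) {e : Crv} (b : Fld e) {T : Finset GQ} (hT : b.Tv 1 T) :
    b.hp T 1 = nd e • ∑ g ∈ T, ga g (b.Y 1) := hp_eq r1 b one_pos (Nat.coprime_one_left _) hT

theorem T1.tow (r1 : RC1) (r2 : RC2) (r3 : RC3) {e : Crv} (b : Fld e) (Q : ℕ → Ideal (𝓞 Qb))
    (φ : ℕ → GQ) {T : Finset GQ} (hT : b.Tv 1 T) (c : ℕ) : Squarefree c →
    (∀ q ∈ c.primeFactors, q ∉ e.S ∧ ¬ q ∣ b.δ') →
    (∀ q ∈ c.primeFactors, Ov q (Q q) ∧ Fb q (Q q) (φ q)) → ∀ T', b.Tv c T' →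
    tr 1 T' (b.Y c) = (∏ q ∈ c.primeFactors, (e.a q - if φ q ∈ b.Γ then 2 else 0)) •
      tr 1 T (b.Y 1) := by
  induction c using induction_on_primes with
  | zero => exact fun h => absurd h not_squarefree_zero
  | one =>
    intro _ _ _ T' hT'
    rw [Nat.primeFactors_one, prod_empty, one_smul, tr1, tr1]
    exact ((fr b hT').rei (p := fun u => ga u (b.Y 1)) (v := id) (fun u a h m => by
      rw [ga_mul, b.fx _ one_pos (Nat.coprime_one_left _) h m]) hT.1 hT.2).symm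
  | prime_mul l c hl ih =>
    intro sq hp hQ T' hT'
    have c0 : 0 < c := Nat.pos_of_ne_zero fun z => sq.ne_zero (by simp [z])
    have pf : ∀ q : ℕ, q.Prime → q ∣ l * c → q ∈ (l * c).primeFactors := fun q a d =>
      Nat.mem_primeFactors.2 ⟨a, d, sq.ne_zero⟩
    have pf' : c.primeFactors ⊆ (l * c).primeFactors :=
      Nat.primeFactors_mono (dvd_mul_left _ _) sq.ne_zero
    have hN : ∀ q : ℕ, q.Prime → q ∣ l * c → ¬ q ∣ e.N := fun q a d =>
      (e.bad q a (hp q (pf q a d)).1).1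
    have cop : (l * c).Coprime e.N := Nat.coprime_of_dvd hN
    have cop' : c.Coprime e.N := cop.coprime_dvd_left (dvd_mul_left _ _)
    have l1 := hN l hl (dvd_mul_right _ _)
    have l0 : ¬ l ∣ c := fun d => hl.one_lt.ne' (Nat.isUnit_iff.1 (sq l (mul_dvd_mul_left l d)))
    have l3 : ¬ l ∣ c * e.N := fun d => ((Nat.Prime.dvd_mul hl).1 d).elim l0 l1
    obtain ⟨l4, l5⟩ := hp l (pf l hl (dvd_mul_right _ _))
    obtain ⟨o, fb⟩ := hQ l (pf l hl (dvd_mul_right _ _))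
    obtain ⟨n, ty⟩ := ex_typ b hl (e.ne_two l4) l5
    obtain ⟨t, -, ht'⟩ := (r3 _ b.j b.iq b.upm).2 l n ty _ o.2.1 o.2.2
    have gn := ht' _ c0 l0
    have n0 : 0 < n := by
      have := hl.two_le
      rcases ty.2 with h | h <;> omega
    obtain ⟨-, -, -, cm, -, le⟩ := r1 _ b.j b.iq _ c0
    have f' := fr b hT'
    have pe : (l * c).primeFactors = insert l c.primeFactors := by
      rw [Nat.primeFactors_mul hl.ne_zero c0.ne', hl.primeFactors, ← insert_eq]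
    obtain ⟨U, f⟩ := (mul_comm l c ▸ f').down (le l hl.pos) inf_le_left fun h _ => sd1 h
    rw [pe, prod_insert fun m => l0 (Nat.dvd_of_mem_primeFactors m), mul_smul,
      ← ih sq.of_mul_right (fun q m => hp q (pf' m)) (fun q m => hQ q (pf' m)) U ⟨f.mem, f.rep⟩]
    rw [mul_comm l c] at f' cop ⊢
    rw [tr1, f.two f' (le l hl.pos) n0 gn.1 gn.2.1 gn.2.2 fun u a h m => by
        rw [ga_mul, b.fx _ (Nat.mul_pos c0 hl.pos) cop h m]]
    have e2 : ∀ u ∈ U, ∑ i ∈ range n, ga (u * t ^ i) (b.Y (c * l)) =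
        ga u (∑ i ∈ range n, ga (t ^ i) (b.Y (c * l))) := fun u _ => by
      rw [map_sum]
      exact sum_congr rfl fun i _ => ga_mul _ _ _
    rw [sum_congr rfl e2, ← tr1]
    by_cases m : φ l ∈ b.Γ
    · obtain ⟨nm, L', h1, h2, h3, h4⟩ := split b.j b.iq o fb m ty
      obtain ⟨a1, -, -, -, -, -, a7⟩ := r2 _ b.j b.iq _ c0
      have co : ∀ L : Ideal (𝓞 b.K), (l : 𝓞 b.K) ∈ L → Cop c L := fun L m =>
        ⟨fun z => hl.ne_zero (by simpa [z] using m), by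
          obtain ⟨u, v, k⟩ := (Nat.isCoprime_iff_coprime.2
            ((Nat.Prime.coprime_iff_not_dvd hl).2 l0)).map (Int.castRingHom (𝓞 b.K))
          simp only [eq_intCast, Int.cast_natCast] at k
          exact (Ideal.eq_top_iff_one _).2 (k ▸ Submodule.add_mem_sup (L.mul_mem_left _ m)
            (Ideal.mul_mem_left _ _ (Ideal.mem_span_singleton_self _)))⟩
      have m' := h4.ge (Ideal.mem_span_singleton_self _)
      have hg := a7 (Q l) o.2.1 (fun e => o.1.ne_zero (by simpa [e] using o.2.2))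
        (fun m => l0 (by exact_mod_cast P004S.ov_dvd o (a := (c : ℕ)) (by exact_mod_cast m)))
        _ m 1 fun x => by rw [pow_one, nm]; exact fb x
      rw [pow_one] at hg
      obtain ⟨g', hg'⟩ := a1 L' (co _ (Ideal.mul_le_right m'))
      have fx := b.fx _ c0 cop'
      rw [b.spl _ l n t c0 cop' hl l3 gn _ L' _ g' h1 h2 h3 h4 hg hg', map_sub, map_sub, map_zsmul,
        tr_ga f cm fx m, tr_ga f cm fx hg'.1, sd1, sd1, if_pos m]
      module
    · rw [(b.ine _ l n t c0 cop' hl l3 gn (inr b o fb (e.ne_two l4) l5 m)).1, map_zsmul, if_neg m,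
        sub_zero]

/-- **row TR1** -/
theorem tr1 (r1 : RC1) (r2 : RC2) (r3 : RC3) : TR1 := fun e b c sq h Q φ hQ T T' hT hT' => by
  rw [hp_eq r1 b (Nat.pos_of_ne_zero sq.ne_zero) (Nat.coprime_of_dvd fun q a d =>
    (e.bad q a (h q (Nat.mem_primeFactors.2 ⟨a, d, sq.ne_zero⟩)).1).1) hT',
    hp_one r1 b hT, ← T1.tr1, ← T1.tr1, T1.tow r1 r2 r3 b Q φ hT c sq h hQ T' hT', smul_comm]

end Vale.Agent.P014Y.Kx
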