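import Vale.Agent.P014Y.Kx.Ker
import Vale.Agent.P014Y.Kx.Tr1
import Vale.Agent.P014U.Kx.Tw

/-! # P014Y, block K, row TR2: the local factor at a prime of the tower -/

set_option linter.all false

open NumberField Matrix
open scoped Classical

noncomputable section

namespace Vale.Agent.P014Y.Kx

open Vale.Agent.P022 Vale.Agent.P014U Vale.Agent.P014Y.F
open Vale.Agent.P022D.W (dec phi_mem)
open Vale.Agent.P022E.GW (Ov Fb)
open P004M.TE (Pt ga)
open Bt (T2)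
open P014T.Wm (Fx)
open P014U.Kx.Tw (rz co co_ex co_inj co_ga)
open P014T.Kx.Tw (sd_sq sd_eq_one)

variable [Pp]

namespace Tr

/-- the fixed points of one element -/
theorem tl_le {A₀ B₀ A B : ℤ} (hD : 4 * (A₀ : ℚ) ^ 3 + 27 * (B₀ : ℚ) ^ 2 ≠ 0)
    (t : Pt A₀ B₀ ≃+ Pt A B) {g : GQ} {s : ℤ} (h : ∀ y, ga g (t y) = t (s • ga g y))
    {D : Subgroup GQ} (hg : g ∈ D) {k : ℕ}
    (hk : ¬ (pp : ℤ_[pp]) ^ (k + 1) ∣ (s • X4M.TE.mt hD g - 1).det) : tl A B D ≤ pp ^ k := by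
  cases finite_or_infinite ↥(T2 A B ⊓ Fx A B D)
  swap
  · exact Nat.card_eq_zero_of_infinite.trans_le (Nat.zero_le _)
  choose i hi using fun y : ↥(T2 A B ⊓ Fx A B D) => y.2.1
  obtain ⟨j, hj⟩ := Finite.exists_le i
  choose v hv using fun y : ↥(T2 A B ⊓ Fx A B D) => co_ex hD j (y := t.symm y) (by
    obtain ⟨r, e⟩ := pow_dvd_pow pp (hj y)
    rw [← map_nsmul, e, mul_nsmul, hi, nsmul_zero, map_zero])
  have q : (s • X4M.TE.mt hD g - 1).map (rz j) = s • (X4M.TE.mt hD g).map (rz j) - 1 := by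
    rw [Matrix.map_sub _ (map_sub _), Matrix.map_one _ (map_zero _) (map_one _)]
    exact congrArg (· - 1) (Matrix.ext fun i j => map_zsmul (rz _) _ _)
  have z : ∀ y, (s • X4M.TE.mt hD g - 1).map (rz j) *ᵥ v y = 0 := fun y => co_inj hD j (by
    rw [q, sub_mulVec, one_mulVec, smul_mulVec, map_sub, map_zsmul, co_ga, hv, map_zero,
      sub_eq_zero]
    exact t.injective (by rw [← h, t.apply_symm_apply, y.2.2 g hg]))
  exact (Nat.card_le_card_of_injective (fun y => ⟨v y, z y⟩) fun y z e => Subtype.ext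
    (t.symm.injective (by rw [← hv, ← hv, Subtype.mk.inj e]))).trans ((ker2 _ _ k j).2 hk)

variable {e : Crv} {q : ℕ} {Q : Ideal (𝓞 Qb)} {φ : GQ}

theorem det (o : Ov q Q) (f : Fb q Q φ) (h : q ∉ e.S) {s : ℤ} (hs : s * s = 1) :
    (s • e.r φ - 1).det = ((q + 1 - s * e.a q : ℤ) : ℤ_[pp]) := by
  have h1 : (e.r φ).trace = e.a q := (e.bad q o.1 h).2.2 φ ⟨Q, o.2.1, o.2.2, f⟩
  have h2 := e.det_fb o (e.ne_pp h) f
  have h3 : (s : ℤ_[pp]) * s = 1 := by exact_mod_cast congrArg (Int.cast : ℤ → ℤ_[pp]) hs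
  rw [trace_fin_two] at h1
  rw [det_fin_two] at h2 ⊢
  simp only [Matrix.sub_apply, Matrix.smul_apply, one_apply_eq, one_apply_ne zero_ne_one,
    one_apply_ne one_ne_zero]
  simp only [zsmul_eq_mul]
  push_cast
  linear_combination (s : ℤ_[pp]) * s * h2 + q * h3 - s * h1

end Tr

open Tr

/-- **row TR2** -/
theorem tr2 : TR2 := fun e b m n q Q φ mn G o f => by
  obtain ⟨k, ty, dk⟩ := G.typ
  obtain ⟨p1, p2⟩ := T1.typ b o f (e.ne_two G.out) G.cop ty
  generalize hz : (e.a q - if φ ∈ b.Γ then 2 else 0) = z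
  have key : ∀ d, d = 1 ∨ d = -(b.δ' : ℤ) → (q : ℤ) + 1 - sd d φ * e.a q = k - sd d φ * z :=
    fun d hd => by
      by_cases c : φ ∈ b.Γ
      · have : sd d φ = 1 := by
          rcases hd with rfl | rfl
          exacts [T1.sd1 φ, sd_eq_one.2 ((b.kd.gk _).1 c)]
        rw [← hz, if_pos c, ← p1 c, this]
        push_cast
        ring
      · rw [← hz, if_neg c, p2 c, sub_zero]
        rfl
  have dk' : (pp : ℤ) ^ m ∣ k := (pow_dvd_pow _ mn).trans (by exact_mod_cast dk)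
  have nz : ¬ (pp : ℤ) ^ m ∣ z := fun d => G.gq (by
    have c := key _ (.inl rfl)
    rw [T1.sd1, one_mul, one_mul] at c
    rw [show ((q : ℤ) + 1) ^ 2 - e.a q ^ 2 = (k - z) * (q + 1 + e.a q) by rw [← c]; ring]
    exact (dvd_sub dk' d).mul_right _)
  obtain ⟨j, j1, j2⟩ := Nat.exists_not_and_succ_of_not_zero_of_exists
    (p := fun j => ¬ (pp : ℤ) ^ j ∣ z) (by simp) ⟨m, nz⟩
  rw [not_not] at j1
  have jm : j < m := not_le.1 fun l => nz ((pow_dvd_pow _ l).trans j1)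
  refine ⟨j, jm.le, j1, fun A B d t h hd =>
    tl_le (hq e.par.disc) t (h φ) (phi_mem o.1 o.2.1 f) fun z => ?_⟩
  have a := sd_sq d φ
  rw [show X4M.TE.mt _ φ = e.r φ from rfl, det o f G.out a, key d hd] at z
  have := ((dvd_sub_right ((pow_dvd_pow _ jm).trans dk')).1
    ((PadicInt.pow_p_dvd_int_iff (p := pp) _ _).1 z)).mul_left (sd d φ)
  rw [← mul_assoc, a, one_mul] at this
  exact j2 this

end Vale.Agent.P014Y.Kx
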