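import Vale.Agent.P014Y.Kx.Kx
import Vale.Agent.P014Y.Kx.Tr2
import Vale.Agent.P004K.Rc.All

/-! # P014Y, block K: the closed terms -/

namespace Vale.Agent.P014Y.Kx

open Vale.Agent.P004K Vale.Agent.P014U

variable [Pp]

theorem tr1_all : TR1 := tr1 x_rc1 x_rc2 x_rc3

/-- **first export** -/
theorem kx_all : KX := kx tr1_all tr2 cvt kb

/-- **second export** -/
theorem kd_all : KD := kd tr1_all tr2 cvt kb

end Vale.Agent.P014Y.Kx
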