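import Vale.Agent.P014Y.Kx.Up
import Vale.Agent.P014U.Sh.Ur
import Vale.Agent.P014U.Bt.Ac
import Vale.Agent.P014T.Kx.Ra
import Vale.Agent.P014T.Kx.Rb
import Vale.Agent.P014T.Kx.Pt
import Vale.Agent.P014T.Kx.Kb

/-! # P014Y, block K: the bound for the strict group over `K` -/

set_option autoImplicit false
set_option linter.all false

open NumberField Filter Topology AddSubgroup
open scoped Classical

noncomputable section

namespace Vale.Agent.P014Y.Kx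

open Vale.Agent.P014U
open Vale.Agent.P022 (Qb GQ IsConj)
open Vale.Agent.P022K.G2 (In)
open Vale.Agent.P022D.W (dec)
open Vale.Agent.P022E.GW (Ov)
open P004M.TE (Pt ga ga_mul ga_one)
open P004F (sd)
open P004S (nu nu_mul nu_conj nu_lc nu_one nu_inv z2 inert_mul)
open Bt (T2 Z0 Zl Km Zs Zk dd Ac)
open P014T.Wm (Fx)
open P014T.Sh (Coc)
open P014T.Kx (rs_in rs_out rs_km)
open P014T.Kx.Ra (lc_of in_cj)
open P014T.Kx.Kb (rel_map card_le km_top)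
open P014T.Kx.Pn (core ker_rs)

variable [Pp]

namespace Kb

theorem ka {F : Type} [AddCommGroup F] {Z₁ Z₀ Z' B₁ B₀ : AddSubgroup F} (h : Z' ≤ Z₁ ⊔ Z₀)
    (b1 : B₁ ≤ Z₁) (c1 : B₁ ≤ Z') (b0 : B₀ ≤ Z₀ ⊓ Z') (n1 : B₁.relIndex Z₁ ≠ 0)
    (n0 : B₀.relIndex (Z₀ ⊓ Z') ≠ 0) : (B₁ ⊔ B₀).relIndex Z' ≠ 0 ∧
      (B₁ ⊔ B₀).relIndex Z' ≤ B₁.relIndex Z₁ * B₀.relIndex (Z₀ ⊓ Z') := by
  have e := relIndex_mul_relIndex (B₁ ⊔ B₀) (B₁ ⊔ Z₀ ⊓ Z') Z' (sup_le_sup_left b0 _)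
    (sup_le c1 inf_le_right)
  have e0 : (B₁ ⊔ B₀).relIndex (B₁ ⊔ Z₀ ⊓ Z') = (B₁ ⊔ B₀).relIndex (Z₀ ⊓ Z') := by
    rw [← relIndex_sup_left (Z₀ ⊓ Z') (B₁ ⊔ B₀), sup_assoc, sup_eq_right.2 b0]
  have e1 : (B₁ ⊔ Z₀).relIndex (Z₁ ⊔ Z₀) = (B₁ ⊔ Z₀).relIndex Z₁ := by
    rw [← relIndex_sup_right Z₁ (B₁ ⊔ Z₀), ← sup_assoc, sup_eq_left.2 b1]
  rw [e0, ← sup_inf_assoc_of_le _ c1, inf_relIndex_right] at e
  have a0 := mt (relIndex_eq_zero_of_le_left (le_sup_right (a := B₁))) n0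
  have a1 := e1 ▸ mt (relIndex_eq_zero_of_le_left (le_sup_left (b := Z₀))) n1
  rw [← e, mul_comm]
  exact ⟨mul_ne_zero (mt (relIndex_eq_zero_of_le_right h) a1) a0, Nat.mul_le_mul
    ((relIndex_le_of_le_right h a1).trans (e1.trans_le (relIndex_le_of_le_left le_sup_left n1)))
    (relIndex_le_of_le_left le_sup_right n0)⟩

variable {A B : ℤ} {S U V : Finset ℕ} {c : GQ} {P : ℕ → Ideal (𝓞 Qb)} {x : GQ → Pt A B} {g h : GQ}

theorem mem_ZU : x ∈ ZU A B S c P U ↔ x ∈ Z0 A B S c ∧ ∀ p ∈ U, x ∈ Km A B (dec (P p)) := by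
  simp [ZU, AddSubgroup.mem_iInf]

theorem mem_ZP {Γ : Subgroup GQ} :
    x ∈ ZP A B Γ S P U ↔ x ∈ ZK A B Γ S ∧ ∀ p ∈ U, x ∈ Km A B (dec (P p)) := by
  simp [ZP, AddSubgroup.mem_iInf]

theorem zs_le (h : U ⊆ S) : Zs A B S c P ≤ ZU A B S c P U := fun _ a =>
  mem_ZU.2 ⟨(Bt.mem_Zs.1 a).1, fun p hp => (Bt.mem_Zs.1 a).2 p (h hp)⟩

theorem tl_eq {A' B' : ℤ} (t : Pt A B ≃+ Pt A' B') {D : Subgroup GQ}
    (e : ∀ g ∈ D, ∀ y, ga g (t y) = t (ga g y)) : tl A B D = tl A' B' D := by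
  refine Nat.card_congr (t.toEquiv.subtypeEquiv fun y => ?_)
  refine and_congr (exists_congr fun k => ?_) (forall₂_congr fun g a => ?_)
  · show _ ↔ pp ^ k • t y = 0
    rw [← map_nsmul, map_eq_zero_iff _ t.injective]
  · show _ ↔ ga g (t y) = t y
    rw [e g a, t.injective.eq_iff]

theorem of_mem (h : x ∈ Zk A B S c) : ∃ Q ∈ Dv A B, ga c Q = Q ∧ dd A B Q = x := by
  obtain ⟨⟨-, -, ⟨k, a⟩, -, b⟩, Q, e⟩ := h
  exact ⟨Q, ⟨k, fun g _ => by rw [map_nsmul, ← sub_eq_zero, ← nsmul_sub, ← e g trivial, a]⟩,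
    sub_eq_zero.1 ((e c trivial).symm.trans b), funext fun g => (e g trivial).symm⟩

theorem of_fin [Finite (Fx A B ⊤)] (h : x ∈ Zk A B S c) : ∃ Q ∈ Ac A B c, dd A B Q = x := by
  obtain ⟨Q, ⟨k, a⟩, b, rfl⟩ := of_mem h
  obtain ⟨e, m, o, n⟩ := Nat.exists_eq_pow_mul_and_not_dvd (Nat.card_pos (α := Fx A B ⊤)).ne' pp
    one_lt.ne'
  have z : (pp ^ e * m) • pp ^ k • Q = 0 :=
    n ▸ congrArg Subtype.val (card_nsmul_eq_zero' (x := (⟨_, a⟩ : Fx A B ⊤)))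
  obtain ⟨u, v, w⟩ := Nat.isCoprime_iff_coprime.2
    (((Nat.Prime.coprime_iff_not_dvd pp_prime).2 o).symm.pow_right k)
  refine ⟨(u * m) • Q, ⟨⟨e + k, ?_⟩, ?_⟩, ?_⟩
  · rw [← smul_zero u, ← z, ← natCast_zsmul, ← natCast_zsmul, ← natCast_zsmul, smul_smul,
      smul_smul, smul_smul]
    congr 1
    push_cast
    ring
  · exact (map_zsmul _ _ _).trans (congrArg _ b)
  · rw [eq_sub_of_add_eq w, sub_smul, one_smul, map_sub, mul_smul, natCast_zsmul, map_zsmul,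
      show dd A B (pp ^ k • Q) = 0 from Bt.ker_dd.2 fun g => a g trivial, zsmul_zero, sub_zero]

theorem T2_le : T2 A B ≤ Dv A B := fun _ ⟨k, a⟩ => ⟨k, a ▸ zero_mem _⟩

variable (s : Su)

theorem cc : s.c * s.c = 1 := P004S.conj_sq s.cc

theorem ci : s.c⁻¹ = s.c := inv_eq_of_mul_eq_one_left (cc s)

theorem mc (g : GQ) : g * s.c * s.c = g := by rw [mul_assoc, cc, mul_one]

theorem gcc (y : Pt A B) : ga s.c (ga s.c y) = y := by rw [← ga_mul, cc, ga_one]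

variable {s}

theorem nu1 (a : g ∉ s.Γ) : nu s.d g = 1 := (z2 _).resolve_left (mt (s.mem g).2 a)

theorem out2 (a : g ∉ s.Γ) (b : h ∉ s.Γ) : g * h ∈ s.Γ :=
  (s.mem _).2 (by rw [nu_mul, nu1 a, nu1 b]; rfl)

theorem cm (a : g ∈ s.Γ) : s.c * g * s.c ∈ s.Γ :=
  out2 (fun b => s.out ((mul_mem_cancel_right a).1 b)) s.out

theorem t_in (a : g ∈ s.Γ) (y) : ga g (s.t y) = s.t (ga g y) := by
  rw [s.tw, sd, if_pos ((s.mem g).1 a), one_smul]

theorem t_out (a : g ∉ s.Γ) (y) : ga g (s.t y) = -s.t (ga g y) := by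
  rw [s.tw, sd, if_neg (mt (s.mem g).2 a), neg_one_smul, map_neg]

theorem e0 (g : GQ) (a : g ∈ s.Γ) (y) : s.t.symm (ga g y) = ga g (s.t.symm y) :=
  s.t.injective (by rw [← t_in a, s.t.apply_symm_apply, s.t.apply_symm_apply])

theorem inj {y : GQ → Pt A B} (h : Coc y) (h0 : y s.c = 0) (z : ∀ g ∈ s.Γ, y g = 0) : y = 0 :=
  funext fun g => by
    by_cases a : g ∈ s.Γ
    · exact z g a
    · have := h (g * s.c) s.c
      rwa [mc, z _ (out2 a s.out), h0, map_zero, add_zero] at this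

theorem rs_inj {A' B' : ℤ} (t : Pt A' B' ≃+ Pt A B) (y) (h : y ∈ Z0 A B S s.c)
    (z : rs s.Γ t y = 0) : y = 0 := inj h.2.1 h.2.2.2.2 fun g a =>
  t.symm.injective (((rs_in a y).symm.trans (congrFun z g)).trans (map_zero _).symm)

theorem fx_top {y : Pt A B} (h : y ∈ Fx A B s.Γ) (k : ga s.c y = y) : y ∈ Fx A B ⊤ := fun g _ => by
  by_cases a : g ∈ s.Γ
  · exact h g a
  · rw [← mc s g, ga_mul, k, h _ (out2 a s.out)]

/-- extension by zero at `c` -/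
def ext (s : Su) (z : GQ → Pt A B) (g : GQ) : Pt A B := if g ∈ s.Γ then z g else z (g * s.c)

/-- invariant cocycles come from `ℚ` -/
theorem ext_mem {z : GQ → Pt A B} {k : ℕ} (p : Pl A B S P) (l : s.S ⊆ S)
    (h1 : ∀ g ∈ s.Γ, ∀ h ∈ s.Γ, z (g * h) = z g + ga g (z h))
    (h2 : ∀ g ∈ s.Γ, z (s.c * g * s.c) = ga s.c (z g)) (h3 : ∀ᶠ w in 𝓝 1, z w = 0)
    (h4 : ∀ g, pp ^ k • z g = 0) (h5 : ∀ g ∈ In s.S, z g = 0) : ext s z ∈ Z0 A B S s.c := by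
  have hy : Coc (ext s z) := fun g h => by
    have k : ∀ g ∉ s.Γ, ∀ h ∈ s.Γ, z (g * h * s.c) = z (g * s.c) + ga g (z h) := fun g a h b => by
      rw [show g * h * s.c = g * s.c * (s.c * h * s.c) by simp only [← mul_assoc, mc],
        h1 _ (out2 a s.out) _ (cm b), h2 h b, ga_mul, gcc]
    by_cases a : g ∈ s.Γ <;> by_cases b : h ∈ s.Γ
    · simp only [ext, a, b, mul_mem a b, if_true, h1 g a h b]
    · simp only [ext, a, b, (s.Γ.mul_mem_cancel_left a).not.2 b, if_true, if_false, mul_assoc,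
        h1 g a _ (out2 b s.out)]
    · simp only [ext, a, b, (s.Γ.mul_mem_cancel_right b).not.2 a, if_true, if_false, k g a h b]
    · simp only [ext, a, b, out2 a b, if_true, if_false, ← k g a _ (out2 b s.out), mul_assoc, cc,
        mul_one]
  have t : ∀ g, pp ^ k • ext s z g = 0 := fun g => by
    unfold ext
    split_ifs <;> exact h4 _
  refine ⟨lc_of hy ?_, hy, ⟨k, t⟩, fun g ⟨q, m, Q, o, i⟩ => ?_, ?_⟩
  · filter_upwards [h3, (nu_lc s.d).eventually_eq 1] with w a b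
    rw [ext, if_pos ((s.mem w).2 (b.trans (nu_one _))), a]
  · by_cases a : g ∈ s.Γ
    · rw [ext, if_pos a, h5 g ⟨q, fun b => m (l b), Q, o, i⟩]
    · have e := hy g g
      rw [Sh.ur1 (p.bad q o.1 m) o i (k := k) (by rw [nsmul_sub, ← map_nsmul, t, map_zero, sub_zero]),
        ext, if_pos (out2 a a), h5 _ ⟨q, fun b => m (l b), Q, o, inert_mul i i⟩, ← two_nsmul] at e
      exact half (t g) e.symm
  · rw [ext, if_neg s.out, cc, h3.self_of_nhds]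

variable (s)

abbrev r1 := rs s.Γ (AddEquiv.refl (Pt s.A s.B))

abbrev r0 := rs s.Γ s.t

/-- **the plus part and the minus part** -/
theorem ra : ZK s.A s.B s.Γ s.S ≤
    (Z0 s.A s.B s.S₁ s.c).map (r1 s) ⊔ (Z0 s.A' s.B' s.S₀ s.c).map (r0 s) := fun x₀ hx => by
  obtain ⟨x, ⟨⟨lc, co, k, tr⟩, z0⟩, rfl⟩ : ∃ x ∈ ZK s.A s.B s.Γ s.S, x₀ = 2 • x := by
    obtain ⟨k, tr⟩ := hx.1.2.2
    obtain ⟨u, v, e⟩ := Nat.isCoprime_iff_coprime.2 (cop_two_pow k)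
    refine ⟨u • x₀, zsmul_mem hx u, funext fun g => ?_⟩
    have : pp ^ k • x₀ g = 0 := (em _).elim (tr g) fun a => by rw [hx.2 g (.inl a), nsmul_zero]
    rw [← natCast_zsmul] at this
    show _ = 2 • u • x₀ g
    linear_combination (norm := module) v • this - e • x₀ g
  have z0 : ∀ g, g ∉ s.Γ ∨ g ∈ In s.S → x g = 0 := z0
  have tr : ∀ g, pp ^ k • x g = 0 := fun g =>
    (em _).elim (tr g) fun a => by rw [z0 g (.inl a), nsmul_zero]
  have tg : ∀ h g, pp ^ k • ga h (x g) = 0 := fun h g => by rw [← map_nsmul, tr, map_zero]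
  have x1 : x 1 = 0 := left_eq_add.1 ((congrArg x (mul_one 1).symm).trans
    ((co 1 (one_mem _) 1 (one_mem _)).trans (congrArg _ (ga_one _))))
  have e0 : ∀ᶠ w in 𝓝 1, x w = 0 := by
    have := lc.eventually_eq 1
    rw [nhds_induced, eventually_comap] at this
    exact this.mono fun w a => (em _).elim (fun m => (a ⟨w, m⟩ rfl).trans x1) fun m => z0 w (.inl m)
  have e1 : Tendsto (fun w => s.c * w * s.c) (𝓝 1) (𝓝 1) :=
    ((continuous_const.mul continuous_id).mul continuous_const).tendsto' 1 1 (by simp [cc])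
  have cx : ∀ g ∈ s.Γ, ∀ h ∈ s.Γ, ga s.c (x (s.c * (g * h) * s.c)) =
      ga s.c (x (s.c * g * s.c)) + ga g (ga s.c (x (s.c * h * s.c))) := fun g a h b => by
    rw [show s.c * (g * h) * s.c = s.c * g * s.c * (s.c * h * s.c) by
      simp only [← mul_assoc, mc], co _ (cm a) _ (cm b), map_add, ga_mul, ga_mul, gcc]
  have ci : ∀ g ∈ In s.S, x (s.c * g * s.c) = 0 := fun g a => z0 _ (.inr (by
    simpa only [ci] using in_cj a s.c))
  have c2 : ∀ g, s.c * (s.c * g * s.c) * s.c = g := fun g => by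
    simp only [← mul_assoc, cc, one_mul, mc]
  refine mem_sup.2 ⟨_, ⟨_, ext_mem (z := fun g => x g + ga s.c (x (s.c * g * s.c))) (k := k) s.p1 s.l1
    (fun g a h b => ?_) (fun g a => ?_) ?_ (fun g => ?_) fun g a => ?_, rfl⟩,
    _, ⟨_, ext_mem (z := fun g => s.t (x g - ga s.c (x (s.c * g * s.c)))) (k := k) s.p0 s.l0
    (fun g a h b => ?_) (fun g a => ?_) ?_ (fun g => ?_) fun g a => ?_, rfl⟩, funext fun g => ?_⟩
  · rw [co g a h b, cx g a h b, map_add]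
    abel
  · rw [c2, map_add, gcc, add_comm]
  · filter_upwards [e0, e1.eventually e0] with w a b
    rw [a, b, map_zero, add_zero]
  · rw [nsmul_add, tr, tg, add_zero]
  · rw [z0 g (.inr a), ci g a, map_zero, add_zero]
  · rw [co g a h b, cx g a h b, t_in a, ← map_add, map_sub (ga g)]
    congr 1
    abel
  · rw [c2, t_out s.out, map_sub (ga s.c), gcc, ← map_neg, neg_sub]
  · filter_upwards [e0, e1.eventually e0] with w a b
    rw [a, b, map_zero, sub_zero, map_zero]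
  · rw [← map_nsmul, nsmul_sub, tr, tg, sub_zero, map_zero]
  · rw [z0 g (.inr a), ci g a, map_zero, sub_zero, map_zero]
  · by_cases a : g ∈ s.Γ
    · simp [rs_in a, ext, a, two_nsmul]
    · simp [rs_out a, z0 g (.inl a)]

theorem r0_dd (y : Pt s.A s.B) : r0 s (dd _ _ (s.t y)) = r1 s (dd _ _ y) := funext fun g => by
  by_cases a : g ∈ s.Γ <;> simp [rs, a, Bt.dd_apply, t_in]

/-- **the classes which come from points** -/
theorem pt [Finite (Fx s.A' s.B' ⊤)] (hj : jx s.A s.B (dec (s.P pp)) ≠ 0)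
    {W : AddSubgroup (GQ → Pt s.A s.B)} (h : W ≤ (Zk s.A s.B s.S₁ s.c).map (r1 s) ⊔
      (Zk s.A' s.B' s.S₀ s.c).map (r0 s)) (z : ∀ x ∈ W, ∀ g ∈ dec (s.P pp), x g = 0) :
    Finite W ∧ Nat.card W * tl s.A' s.B' ⊤ ≤ jx s.A s.B (dec (s.P pp)) := by
  have le := s.le pp (Finset.mem_insert_self _ _)
  let δ := (r1 s).comp (dd s.A s.B)
  let M₁ := Dv s.A s.B ⊓ (ga s.c).eqLocus (AddMonoidHom.id _)
  let M₀ := (Ac s.A' s.B' s.c).comap s.t.toAddMonoidHom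
  have m1 : M₀ ≤ T2 s.A s.B := fun u ⟨⟨k, a⟩, _⟩ => ⟨k, s.t.injective (by
    rw [map_nsmul, map_zero]; exact a)⟩
  have m0 := m1.trans T2_le
  have h1 : (Zk s.A s.B s.S₁ s.c).map (r1 s) ≤ M₁.map δ := by
    rintro _ ⟨x, a, rfl⟩
    obtain ⟨Q, b, c, rfl⟩ := of_mem a
    exact ⟨Q, ⟨b, c⟩, rfl⟩
  have h0 : (Zk s.A' s.B' s.S₀ s.c).map (r0 s) ≤ M₀.map δ := by
    rintro _ ⟨x, a, rfl⟩
    obtain ⟨Q, b, rfl⟩ := of_fin a
    obtain ⟨Q, rfl⟩ := s.t.surjective Q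
    exact ⟨Q, b, (r0_dd s Q).symm⟩
  have key := core δ M₁ M₀ (Dv s.A s.B ⊓ Fx s.A s.B (dec (s.P pp))) (Fx s.A s.B ⊤) ⊥
    (B₁ := ⊥) (B₀ := ⊥) (W := W) bot_le bot_le (fun x a => by
      obtain ⟨_, ⟨q, b, rfl⟩, _, ⟨u, c, rfl⟩, rfl⟩ := mem_sup.1 (sup_le_sup h1 h0 (h a))
      refine ⟨q + u, ⟨add_mem b.1 (m0 c), fun g d => ?_⟩, map_add _ _ _⟩
      have := z _ a g d
      rw [← map_add] at this
      exact sub_eq_zero.1 ((if_pos (le d)).symm.trans this))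
    (fun y a => ⟨⟨0, by rwa [pow_zero, one_smul]⟩, a _ trivial⟩)
    (fun y a => ⟨ker_rs.2 fun g _ => a g trivial, ⟨0, by rwa [pow_zero, one_smul]⟩,
      fun g _ => a g trivial⟩)
    (fun y a => by
      have b : ga s.c (s.t y) = s.t y := a.2.2
      rw [t_out s.out, show ga s.c y = y from a.1.2, ← map_neg] at b
      obtain ⟨k, e⟩ := m1 a.2
      exact half e ((two_nsmul y).trans (add_eq_zero_iff_neg_eq.2 (s.t.injective b))))
    (fun u a q b e => ⟨(Dv s.A s.B).sub_mem (m0 a) b.1, fun g d => ker_rs.1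
      (show δ (u - q) = 0 by rw [map_sub, e, sub_self]) g (le d)⟩) hj
  refine ⟨key.1, ?_⟩
  have k := key.2
  rw [inf_idem, card_bot, card_bot, one_mul, one_mul] at k
  refine le_of_eq_of_le (congrArg _ ?_) k
  exact (Nat.card_congr (s.t.toEquiv.subtypeEquiv fun y => ⟨fun a => ⟨a.2.1, fx_top
    (ker_rs.1 ((r0_dd s y).trans a.1)) a.2.2⟩, fun a => ⟨(r0_dd s y).symm.trans
    (ker_rs.2 fun g _ => a.2 g trivial), a.1, a.2 _ trivial⟩⟩)).symm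

theorem ari {w u s e s' x j p t q r : ℕ} (a : w ≤ u * (s * e * (s' * x))) (b : u * t ≤ j)
    (c : e ≤ j * p) (d : x * t ≤ q) : w * r * t ^ 2 ≤ j ^ 2 * s * s' * p * (q * r) :=
  calc _ ≤ u * (s * e * (s' * x)) * r * t ^ 2 := by gcongr
    _ = u * t * e * (x * t) * (s * s' * r) := by ring
    _ ≤ j * (j * p) * q * (s * s' * r) := by gcongr
    _ = _ := by ring

end Kb

open Kb in
/-- **row KB** -/
theorem kb : KB := fun s hy hf hj h1 h0 => by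
  obtain ⟨u1, u2⟩ := Up.up1 _ _ _ _ _ s.p1 s.cc hy hj
  have sb : s.σ ⊆ s.S₀.erase pp := s.sub.trans (Finset.erase_subset_erase _ s.l0)
  have sU : insert pp s.σ ⊆ s.S₀ := Finset.insert_subset s.p0.two (sb.trans (Finset.erase_subset _ _))
  obtain ⟨v1, v2⟩ := Up.up0' _ _ _ _ _ _ s.p0 s.cc sU (Finset.mem_insert_self _ _) s.ne
  set Z₁ := (Z0 s.A s.B s.S₁ s.c).map (r1 s)
  set Z₀ := (Z0 s.A' s.B' s.S₀ s.c).map (r0 s)
  set Z' := (Z₁ ⊔ Z₀) ⊓ ⨅ p ∈ insert pp s.σ, Km s.A s.B (dec (s.P p))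
  have mz : ∀ {x}, x ∈ Z' ↔ x ∈ Z₁ ⊔ Z₀ ∧ ∀ p ∈ insert pp s.σ, x ∈ Km s.A s.B (dec (s.P p)) := by
    simp only [Z', mem_inf, AddSubgroup.mem_iInf, implies_true]
  have eY : Z₀ ⊓ Z' = (ZU s.A' s.B' s.S₀ s.c s.P (insert pp s.σ)).map (r0 s) := by
    refine le_antisymm ?_ ?_
    · rintro _ ⟨⟨y, h, rfl⟩, k⟩
      exact ⟨y, mem_ZU.2 ⟨h, fun p a => (rs_km e0 y (s.le p a)).1 ((mz.1 k).2 p a)⟩, rfl⟩
    · rintro _ ⟨y, h, rfl⟩
      have k : r0 s y ∈ Z₀ := ⟨y, h.1, rfl⟩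
      exact ⟨k, mz.2 ⟨mem_sup_right k, fun p a => (rs_km e0 y (s.le p a)).2 ((mem_ZU.1 h).2 p a)⟩⟩
  have l0 := (Bt.Zk_le s.S₀ s.c s.P).trans (zs_le (A := s.A') (B := s.B') sU)
  have f0 := (rel_map (r0 s) l0 fun y h => rs_inj _ y h.1).trans
    (relIndex_mul_relIndex _ _ _ (Bt.Zk_le _ _ _) (zs_le sU)).symm
  have f1 := (rel_map (r1 s) (H := Zk s.A s.B s.S₁ s.c) inf_le_left (rs_inj _)).trans
    (relIndex_mul_relIndex _ (Zs s.A s.B s.S₁ s.c s.P) _ (Bt.Zk_le _ _ _) inf_le_left).symm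
  rw [← eY] at f0
  obtain ⟨k1, k2⟩ := ka (Z₁ := Z₁) (Z₀ := Z₀) (Z' := Z') (B₁ := (Zk s.A s.B s.S₁ s.c).map (r1 s))
    inf_le_left (map_mono inf_le_left) (by
      rintro _ ⟨y, h, rfl⟩
      exact mz.2 ⟨mem_sup_left ⟨y, h.1, rfl⟩, fun p a =>
        (rs_km (fun _ _ _ => rfl) y (s.le p a)).2 (km_top _ h.2)⟩) (eY ▸ map_mono l0)
    (f1 ▸ mul_ne_zero h1 u1) (f0 ▸ mul_ne_zero h0 v1)
  have lW : ZW s.A s.B s.Γ s.S s.P s.σ ≤ Z' := fun x h =>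
    mz.2 ⟨ra s (mem_ZP.1 h.1).1, fun p a => by
      rcases Finset.mem_insert.1 a with rfl | a
      · exact ⟨0, fun g k => by rw [h.2 g k]; simp⟩
      · exact (mem_ZP.1 h.1).2 p a⟩
  obtain ⟨p2, p3⟩ := pt s hj (W := ZW s.A s.B s.Γ s.S s.P s.σ ⊓ _) inf_le_right fun x a => a.1.2
  obtain ⟨w1, w2⟩ := card_le lW k1 p2
  refine ⟨w1, ?_⟩
  rw [f0, f1] at k2
  rw [← Finset.prod_sdiff sb, show s.S₀.erase pp \ s.σ = s.S₀ \ insert pp s.σ from by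
    ext; simp only [Finset.mem_sdiff, Finset.mem_erase, Finset.mem_insert, not_or]; tauto,
    Finset.prod_congr rfl fun p a =>
    tl_eq s.t fun g k => t_in (s.le p (Finset.mem_insert_of_mem a) k)]
  exact ari (w2.trans (Nat.mul_le_mul_left _ k2)) p3 u2 v2

end Vale.Agent.P014Y.Kx
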