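import Vale.Agent.P014Y.Kx.St
import Vale.Agent.P014Y.Kx.Kb
import Vale.Agent.P014T.Kx.Cvt
import Vale.Agent.P014U.Kx.Tw

/-! # P014Y, block K: row CVT -/

set_option autoImplicit false
set_option linter.all false

open NumberField Matrix
open scoped Classical

noncomputable section

namespace Vale.Agent.P014Y.Kx

open Vale.Agent.P022 Vale.Agent.P014U Vale.Agent.P014Y.F
open Vale.Agent.P022D.W (dec)
open Vale.Agent.P022E.GW (Ov)
open P004M.TE (Pt ga)
open Bt (T2 Zl Km)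
open P014T.Wm (Fx)
open P004F.Pr (ac)
open P014U.Kx.Tw (rz co co_inj co_ga co_tors)
open P014T.Kx.Cv (card_le)

variable [Pp]

theorem Cv.sg {e : Crv} {p : ℕ} (h : p ∈ e.σ) : p ∈ e.S ∧ p ≠ pp :=
  ⟨List.mem_toFinset.1 (Finset.mem_filter.1 h).1, (Finset.mem_filter.1 h).2.1⟩

theorem Cv.tl_ne {A B : ℤ} (hD : 4 * A ^ 3 + 27 * B ^ 2 ≠ 0) {p : ℕ} {Q : Ideal (𝓞 Qb)}
    (o : Ov p Q) (h : p ≠ pp) : tl A B (dec Q) ≠ 0 :=
  Nat.card_ne_zero.2 ⟨⟨0⟩, (Up.lo hD o h).fin⟩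

open Cv

/-- **row CVT** -/
theorem cvt : CVT := fun e b A B t ht P k c hP fin => by
  have hD := hq e.par.disc
  let ι : (Fin 2 → ZMod (pp ^ k)) →+ Pt A B := t.toAddMonoidHom.comp (co hD k)
  have i0 : Function.Injective ι := t.injective.comp (co_inj hD k)
  have i1 : ∀ v, pp ^ k • ι v = 0 := fun v => by
    show pp ^ k • t _ = 0
    rw [← map_nsmul, co_tors, map_zero]
  have i2 : ∀ g ∈ b.Γ, ∀ v, ι (ac ((e.r g).map (PadicInt.toZModPow k)) v) = ga g (ι v) :=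
    fun g m v => by
      show t (co hD k ((X4M.TE.mt hD g).map (rz k) *ᵥ v)) = ga g (t _)
      rw [co_ga, ht g m]
  have i3 : ∀ g ∈ b.Γ, ∀ v, ι (ac ((e.r g).map (PadicInt.toZModPow k) - 1) v) = ga g (ι v) - ι v :=
    fun g m v => by
      rw [← i2 g m, ← map_sub]
      exact congrArg ι ((sub_mulVec _ _ _).trans (congrArg _ (one_mulVec v)))
  have mem : ∀ x ∈ b.Zf k c, (fun g => ι (x.1 g)) ∈ ZW A B b.Γ (b.T c) P e.σ := fun x hx => by
    refine ⟨⟨⟨⟨?_, fun g hg h hh => ?_, k, fun g _ => i1 _⟩, fun g hg => ?_⟩, ?_⟩, fun g hg => ?_⟩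
    · obtain ⟨W, o, w⟩ := hx.lc
      refine (IsLocallyConstant.iff_eventually_eq _).2 fun g₀ => ?_
      filter_upwards [(o.preimage ((continuous_const_mul (g₀ : GQ)⁻¹).comp
        continuous_subtype_val)).mem_nhds (show g₀ ∈ _ by simpa using W.one_mem)] with g hg
      have := hx.coc g₀ g₀.2 _ (mul_mem (inv_mem g₀.2) g.2)
      rw [mul_inv_cancel_left] at this
      rw [this, map_add, i2 _ g₀.2, w ((g₀ : GQ)⁻¹ * g) hg, map_zero, map_zero, add_zero]
    · show ι _ = ι _ + ga g (ι _)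
      rw [hx.coc g hg h hh, map_add, i2 g hg]
    · show ι _ = 0
      rw [hg.elim (P004F.Cc.out hx.toCc g) (hx.unr g), map_zero]
    · refine AddSubgroup.mem_iInf.2 fun p => AddSubgroup.mem_iInf.2 fun hp => ⟨ι (x.2 ⟨p, hp⟩), ?_⟩
      rw [hP p (sg hp).1]
      exact fun g hg => (congrArg ι (hx.sp ⟨p, hp⟩ g hg)).trans (i3 _ (b.le p (sg hp).1 hg) _)
    · rw [hP pp e.pm] at hg
      show ι _ = 0
      rw [show x.1 g = 0 from funext fun i => (hx.sv g hg i).trans (smul_zero _), map_zero]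
  have : ∀ p : e.σ, Finite ↥(T2 A B ⊓ Fx A B (dec (P p))) := fun p =>
    Nat.finite_of_card_ne_zero (by
      rw [hP p (sg p.2).1]
      exact fun z => tl_ne e.par.disc (e.ov p (sg p.2).1) (sg p.2).2
        ((Kb.tl_eq t fun g m => ht g (b.le p (sg p.2).1 m)).trans z))
  refine (card_le (F := ∀ p : e.σ, ↥(T2 A B ⊓ Fx A B (dec (P p))))
    (fun x : b.Zf k c => (⟨_, mem x x.2⟩ : ZW A B b.Γ (b.T c) P e.σ))
    (fun x p => ι (x.1.2 p)) (fun u p => (u p : Pt A B)) (fun x x' h => ?_)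
    fun x x' h h' => ?_).trans (le_of_eq ?_)
  · refine ⟨fun p => ⟨ι (x.1.2 p) - ι (x'.1.2 p), ⟨k, by rw [nsmul_sub, i1, i1, sub_zero]⟩,
      fun g hg => ?_⟩, rfl⟩
    rw [hP p (sg p.2).1] at hg
    have m := b.le p (sg p.2).1 hg
    have : ι (x.1.1 g) = ι (x'.1.1 g) := congrFun (congrArg Subtype.val h) g
    rw [x.2.sp p g hg, x'.2.sp p g hg, i3 g m, i3 g m] at this
    rw [map_sub]
    exact sub_eq_sub_iff_sub_eq_sub.1 this
  · exact Subtype.ext (Prod.ext (funext fun g => i0 (congrFun (congrArg Subtype.val h) g))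
      (funext fun p => i0 (congrFun h' p)))
  · rw [Nat.card_pi]
    exact congrArg _ (Finset.prod_coe_sort e.σ fun p => tl A B (dec (P p)))

end Vale.Agent.P014Y.Kx
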