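import Vale.Agent.P014Y.Kx.St
import Vale.Agent.P014Y.F.Pt.Kd
import Vale.Agent.P014Y.F.Qx.Fg
import Vale.Agent.P014Y.Kx.Cvt

/-! # P014Y, block K: the exports from the rows -/

set_option linter.all false

open NumberField
open scoped Classical

noncomputable section

namespace Vale.Agent.P014Y.Kx

open Vale.Agent.P022 Vale.Agent.P014U Vale.Agent.P014Y.F
open Vale.Agent.P022D.W (dec)
open Vale.Agent.P022E.GW (Ov Fb)
open P004M.TE (Pt ga)
open P004F.Qx (Fk)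
open P014T.Kx.Cv (tw_symm tw_trans)
open P014T.Kx.Tw (sd_eq_one)

variable [Pp]

theorem fk_mul {A B : ℤ} (hD : 4 * A ^ 3 + 27 * B ^ 2 ≠ 0) {P : Ideal (𝓞 Qb)}
    (o : Ov pp P) {κ : ℕ} (k0 : κ ≠ 0) (k2 : pp ∣ κ) {y : Pt A B} (h : Fk P κ y) (k : ℕ) {r : ℤ}
    (hr : (pp : ℤ) ^ k ∣ r) : Fk P (pp ^ k * κ) (r • y) := by
  have p0 := pp_prime.ne_zero
  have F := (Qx.fg A B hD P o.2.1 fun z => p0 (by simpa [z] using o.2.2)).2.2.2.2.2
  have a : ∀ k : ℕ, Fk P (pp ^ k * κ) (pp ^ k • y) := fun k => by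
    induction k with
    | zero => simpa using h
    | succ k ih =>
      rw [pow_succ', mul_assoc, mul_smul]
      exact (((F _ (by positivity)).2.2 (k2.mul_left _) _).1 ih).1
  obtain ⟨r, rfl⟩ := hr
  have s := fun y y' a b => ((F (pp ^ k * κ) (by positivity)).1 y y' a b).1
  have z := sub_self (pp ^ k • y) ▸ s _ _ (a k) (a k)
  rw [mul_comm _ r, mul_smul, show (pp : ℤ) ^ k • y = pp ^ k • y by
    rw [← natCast_zsmul]; push_cast; rfl]
  induction r with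
  | zero => rwa [zero_zsmul]
  | succ r ih =>
    have := s _ _ ih (s _ _ z (a k))
    rwa [zero_sub, sub_neg_eq_add, ← add_one_zsmul] at this
  | pred r ih => rw [sub_smul, one_smul]; exact s _ _ ih (a k)

theorem kap_ne (e : Crv) : e.S.prod ^ 2 ≠ 0 :=
  pow_ne_zero _ (List.prod_ne_zero fun z => Nat.not_prime_zero (e.ov 0 z).1)

theorem kap_dvd (e : Crv) : pp ∣ e.S.prod ^ 2 := dvd_pow (List.dvd_prod e.pm) two_ne_zero

theorem tw_in {e : Crv} (b : Fld e) {A B d : ℤ} {t : Pt e.A e.B ≃+ Pt A B} (h : Tw d t)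
    (hd : d = 1 ∨ d = -b.δ') {g : GQ} (m : g ∈ b.Γ) (y : Pt e.A e.B) : ga g (t y) = t (ga g y) := by
  rw [h, sd_eq_one.2, one_smul]
  rcases hd with rfl | rfl
  exacts [P004S.nu_one_left g, (b.kd.gk g).1 m]

/-- one conductor -/
theorem core (h2 : TR1) (h3 : TR2) (h4 : CVT) (h5 : KB) {e : Crv} {b : Fld e} {A B A' B' : ℤ} {P}
    {S S' : Finset ℕ} {s s' : ℕ} (h : Pr2 b A B A' B' P S S' s s') {m n c : ℕ} (mn : m ≤ n)
    (cd : b.Cd m n c) : ∃ K ≤ m * m, (∃ r, (pp : ℤ) ^ K ∣ r ∧ ∀ T T', b.Tv 1 T → b.Tv c T' →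
      b.hp T' c = r • b.hp T 1) ∧ ∀ k, Nat.card (b.Zf k c) * tl A' B' ⊤ ^ 2 ≤ pp ^ (2 * K) *
      (jx A B (dec (P pp)) ^ 2 * s * s' * (∏ p ∈ S.erase pp, tl A B (dec (P p))) *
        ∏ p ∈ S'.erase pp, tl A' B' (dec (P p))) := by
  obtain ⟨⟨d, d', t, t', ht, ht', hd⟩, hP, l1, l0, u1, u0, p1, p0, rk, fin, j0, sh1, sh0, s0, s0'⟩ := h
  obtain ⟨c1, sq, crd, gp⟩ := cd
  have pr : ∀ q ∈ c.primeFactors, q.Prime := fun q => Nat.prime_of_mem_primeFactors
  set V := e.S.toFinset ∪ b.δ'.primeFactors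
  have mS : ∀ {p}, p ∈ e.S → p ∈ e.S.toFinset := List.mem_toFinset.2
  have mV : ∀ {p}, p ∈ e.S → p ∈ V := fun h => Finset.mem_union_left _ (mS h)
  have nS : ∀ q ∈ c.primeFactors, q ∉ V := fun q hq h =>
    (Finset.mem_union.1 h).elim (fun h => (gp q hq).out (List.mem_toFinset.1 h))
      fun h => (gp q hq).cop (Nat.dvd_of_mem_primeFactors h)
  choose! Q hQ using fun (q : ℕ) (h : q.Prime) => P004R.Mu.ex_pl h
  obtain ⟨P', e1, o⟩ : ∃ P' : ℕ → Ideal (𝓞 Qb), (∀ p ∈ V, P' p = P p) ∧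
      ∀ p ∈ c.primeFactors, Ov p (P' p) := ⟨fun p => if p ∈ V then P p else Q p,
    fun p h => if_pos h, fun p h => by simp only [nS p h, if_false]; exact hQ p (pr p h)⟩
  choose! φ hφ using fun q h => P022D.W.exists_phi (o q h).1 (o q h).2.1 (o q h).2.2
  choose! k k1 k2 k3 using fun q h => h3 e b m n q (P' q) (φ q) mn (gp q h) (o q h) (hφ q h)
  refine ⟨∑ q ∈ c.primeFactors, k q, (Finset.sum_le_card_nsmul _ _ _ k1).trans
    (Nat.mul_le_mul_right _ crd), ⟨_, ?_, h2 e b c sq (fun q h => ⟨(gp q h).out, (gp q h).cop⟩) P' φ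
      fun q h => ⟨o q h, hφ q h⟩⟩, fun k' => ?_⟩
  · rw [← Finset.prod_pow_eq_pow_sum]
    exact Finset.prod_dvd_prod_of_dvd _ _ k2
  have pl : ∀ {A B S}, S ⊆ V → Pl A B S P → Pl A B (S ∪ c.primeFactors) P' := fun l p =>
    ⟨p.disc, fun q h => (Finset.mem_union.1 h).elim (fun h => (e1 q (l h)).symm ▸ p.ov q h) (o q),
      fun q h n => p.bad q h (mt (Finset.mem_union_left _) n)⟩
  have sg' : ∀ p ∈ insert pp e.σ, p ∈ e.S := fun p h =>
    (Finset.mem_insert.1 h).elim (· ▸ e.pm) fun h => (Cv.sg h).1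
  have e2 : ∀ p ∈ e.S, P' p = e.P p := fun p h => (e1 p (mV h)).trans (hP p h)
  have e3 : P' pp = P pp := e1 pp (mV e.pm)
  have q1 := pl u1 p1
  have q0 := pl u0 p0
  have r1 := sh1 _ _ Finset.subset_union_left q1
  have r0 := sh0 _ _ Finset.subset_union_left q0
  have δ0 : (-b.δ' : ℤ) ≠ 0 := neg_ne_zero.2 (Int.natCast_ne_zero.2 b.pos.ne')
  have d1 : d = 1 ∨ d = -b.δ' := hd.imp And.left And.left
  have d0 : d' = 1 ∨ d' = -b.δ' := hd.symm.imp And.right And.right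
  obtain ⟨fw, Y⟩ := h5 ⟨A, B, A', B', -b.δ', t.symm.trans t', b.Γ, b.c, b.T c, _, _, e.σ, P', by
      rcases hd with ⟨rfl, rfl⟩ | ⟨rfl, rfl⟩
      · exact one_mul (-b.δ' : ℤ) ▸ tw_trans one_ne_zero δ0 (tw_symm ht) ht'
      · exact mul_one (-b.δ' : ℤ) ▸ tw_trans δ0 one_ne_zero (tw_symm ht) ht',
    b.kd.gk, b.cc, b.c_out, q1, q0, Finset.union_subset_union_left l1,
    Finset.union_subset_union_left l0,
    fun p h => Finset.mem_erase.2 ⟨(Cv.sg h).2, Finset.mem_union_left _ (mS (Cv.sg h).1)⟩,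
    fun p h => e2 p (sg' p h) ▸ b.le p (sg' p h), fun z => by
      obtain ⟨q, h⟩ := Nat.nonempty_primeFactors.2 c1
      exact (gp q h).out (sg' q (z ▸ Finset.mem_union_right _ h))⟩ rk fin (e3 ▸ j0)
    (r1 ▸ s0) (r0 ▸ s0')
  have sp : ∀ {A B S}, S ⊆ V → ∏ p ∈ (S ∪ c.primeFactors).erase pp, tl A B (dec (P' p)) =
      (∏ p ∈ S.erase pp, tl A B (dec (P p))) * ∏ p ∈ c.primeFactors, tl A B (dec (P' p)) :=
    fun l => by
      rw [Finset.erase_union_distrib, Finset.erase_eq_of_notMem fun h => nS pp h (mV e.pm),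
        Finset.prod_union (Finset.disjoint_right.2 fun q h h' =>
          nS q h (l (Finset.mem_of_mem_erase h')))]
      exact congrArg (· * _) (Finset.prod_congr rfl fun p h => by
        rw [e1 p (l (Finset.mem_of_mem_erase h))])
  have Z : (∏ p ∈ c.primeFactors, tl A B (dec (P' p))) * ∏ p ∈ c.primeFactors,
      tl A' B' (dec (P' p)) ≤ pp ^ (2 * ∑ q ∈ c.primeFactors, k q) := by
    rw [two_mul, pow_add, ← Finset.prod_pow_eq_pow_sum]
    exact Nat.mul_le_mul (Finset.prod_le_prod' fun q h => k3 q h _ _ _ t ht d1)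
      (Finset.prod_le_prod' fun q h => k3 q h _ _ _ t' ht' d0)
  dsimp only at Y
  have Y := (Nat.mul_le_mul_right _ (h4 e b A B t (fun g => tw_in b ht d1) P' k' c e2 fw)).trans Y
  rw [r1, r0, e3, sp u1, sp u0] at Y
  calc _ ≤ _ := Y
    _ = _ * (_ * _) := ?_
    _ ≤ _ := (Nat.mul_le_mul_left _ Z).trans_eq (mul_comm _ _)
  ring

/-- **the first export** -/
theorem kx (h2 : TR1) (h3 : TR2) (h4 : CVT) (h5 : KB) : KX := by
  intro e b ⟨m, hm⟩ A B A' B' P S S' s s' i T h hT hF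
  obtain ⟨c, cd, fx⟩ := hm (i + m * m + m)
  obtain ⟨K, k, ⟨r, a, y⟩, z⟩ := core h2 h3 h4 h5 h (Nat.le_add_left _ _) cd
  have X := fx (K + i) (by omega) fun T' hT' => by
    rw [y T T' hT hT', pow_add, mul_assoc]
    exact fk_mul e.par.disc (e.ov pp e.pm) (mul_ne_zero (pow_ne_zero _ pp_prime.ne_zero) (kap_ne e))
      ((kap_dvd e).mul_left _) hF _ a
  refine Nat.le_of_mul_le_mul_left (((Nat.mul_le_mul_right _ X).trans (z _)).trans_eq' ?_)
    (pow_pos pp_prime.pos (2 * K))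
  ring

/-- **the second export** -/
theorem kd (h2 : TR1) (h3 : TR2) (h4 : CVT) (h5 : KB) : KD := by
  intro e b A B A' B' P S S' s s' h m
  refine ⟨pp ^ (2 * (m * m)) * (jx A B (dec (P pp)) ^ 2 * s * s' *
    (∏ p ∈ S.erase pp, tl A B (dec (P p))) * ∏ p ∈ S'.erase pp, tl A' B' (dec (P p))),
    fun n c mn cd => ?_⟩
  obtain ⟨K, k, -, z⟩ := core h2 h3 h4 h5 h mn cd
  have := h.fin
  have t : 0 < tl A' B' ⊤ := @Nat.card_pos _ ⟨0⟩
    (.of_injective _ (AddSubgroup.inclusion_injective inf_le_right))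
  exact ((Nat.le_mul_of_pos_right _ (pow_pos t 2)).trans (z _)).trans (Nat.mul_le_mul_right _
    (Nat.pow_le_pow_right pp_prime.pos (Nat.mul_le_mul_left _ k)))

end Vale.Agent.P014Y.Kx
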