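import Vale.Agent.P014Y.Kx.Wd
import Vale.Agent.P014Y.F.St

/-! # P014Y, block K: the rows which depend on the frame -/

set_option autoImplicit false
set_option linter.all false

open NumberField
open scoped Classical

noncomputable section

namespace Vale.Agent.P014Y.Kx

open Vale.Agent.P014U Vale.Agent.P014Y.F
open Vale.Agent.P022 (Qb GQ)
open Vale.Agent.P022D.W (dec)
open Vale.Agent.P022E.GW (Ov Fb)
open P004M.TE (Pt ga)
open P004F.Qx (Fk)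
open P014T.Wm (Fx)

variable [Pp]

/-- the trace down the tower: one factor for each prime -/
def TR1 : Prop := ∀ (e : Crv) (b : Fld e) (c : ℕ), Squarefree c →
  (∀ q ∈ c.primeFactors, q ∉ e.S ∧ ¬ q ∣ b.δ') → ∀ (Q : ℕ → Ideal (𝓞 Qb)) (φ : ℕ → GQ),
  (∀ q ∈ c.primeFactors, Ov q (Q q) ∧ Fb q (Q q) (φ q)) → ∀ T T', b.Tv 1 T → b.Tv c T' →
  b.hp T' c = (∏ q ∈ c.primeFactors, (e.a q - if φ q ∈ b.Γ then 2 else 0)) • b.hp T 1

/-- the local factor at a prime of the tower -/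
def TR2 : Prop := ∀ (e : Crv) (b : Fld e) m n q Q φ, m ≤ n → b.Gp m n q → Ov q Q → Fb q Q φ →
  ∃ k ≤ m, ((pp : ℤ) ^ k ∣ e.a q - if φ ∈ b.Γ then 2 else 0) ∧ ∀ (A B d : ℤ)
    (t : Pt e.A e.B ≃+ Pt A B), Tw d t → d = 1 ∨ d = -b.δ' → tl A B (dec Q) ≤ pp ^ k

/-- coordinates -/
def CVT : Prop := ∀ (e : Crv) (b : Fld e) (A B : ℤ) (t : Pt e.A e.B ≃+ Pt A B),
  (∀ g ∈ b.Γ, ∀ y, ga g (t y) = t (ga g y)) → ∀ P k c, (∀ p ∈ e.S, P p = e.P p) →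
  Finite (ZW A B b.Γ (b.T c) P e.σ) →
  Nat.card (b.Zf k c) ≤ Nat.card (ZW A B b.Γ (b.T c) P e.σ) * ∏ p ∈ e.σ, tl A B (dec (P p))

/-- the curve and its twist by the field, in any order: `(A, B)` has positive rank, `(A', B')` has
rank zero, the primary parts of the Tate-Shafarevich groups have orders `s`, `s'` -/
structure Pr2 {e : Crv} (b : Fld e) (A B A' B' : ℤ) (P : ℕ → Ideal (𝓞 Qb)) (S S' : Finset ℕ)
    (s s' : ℕ) : Prop where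
  tw : ∃ (d d' : ℤ) (t : Pt e.A e.B ≃+ Pt A B) (t' : Pt e.A e.B ≃+ Pt A' B'), Tw d t ∧ Tw d' t' ∧
    (d = 1 ∧ d' = -b.δ' ∨ d = -b.δ' ∧ d' = 1)
  pl : ∀ p ∈ e.S, P p = e.P p
  lo : e.S.toFinset ⊆ S
  lo' : e.S.toFinset ⊆ S'
  up : S ⊆ e.S.toFinset ∪ b.δ'.primeFactors
  up' : S' ⊆ e.S.toFinset ∪ b.δ'.primeFactors
  p1 : Pl A B S P
  p0 : Pl A' B' S' P
  rk : ∃ y ∈ Fx A B ⊤, ¬ IsOfFinAddOrder y
  fin : Finite (Fx A' B' ⊤)
  jx0 : jx A B (dec (P pp)) ≠ 0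
  s1 : Sh A B S b.c s
  s0 : Sh A' B' S' b.c s'
  n1 : s ≠ 0
  n0 : s' ≠ 0

/-- **the first export of the block** -/
def KX : Prop := ∀ (e : Crv) (b : Fld e), b.Lb → ∀ A B A' B' P S S' s s' i T,
  Pr2 b A B A' B' P S S' s s' → b.Tv 1 T → Fk (e.P pp) (pp ^ i * e.S.prod ^ 2) (b.hp T 1) →
  pp ^ (2 * i) * tl A' B' ⊤ ^ 2 ≤ jx A B (dec (P pp)) ^ 2 * s * s' *
    (∏ p ∈ S.erase pp, tl A B (dec (P p))) * ∏ p ∈ S'.erase pp, tl A' B' (dec (P p))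

/-- **the second export: the strict groups are bounded** -/
def KD : Prop := ∀ (e : Crv) (b : Fld e) A B A' B' P S S' s s',
  Pr2 b A B A' B' P S S' s s' → b.Bd

end Vale.Agent.P014Y.Kx
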