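import Vale.Agent.P014Y.F.St
import Vale.Agent.P014T.Kx.Ker

/-! # P014Y, block K, row KER: kernels of matrices modulo powers of the prime -/

set_option linter.all false

open Matrix Module

noncomputable section

namespace Vale.Agent.P014Y.Kx

open Vale.Agent.P014U
open P014T.Kx.Ke (snf)

variable [Pp]

namespace Ke

variable {n : Type} [Fintype n] [DecidableEq n]

theorem dg {M : Matrix n n ℤ_[pp]} (h : M.det ≠ 0) : ∃ v : n → ℕ,
    Associated M.det ((pp : ℤ_[pp]) ^ ∑ i, v i) ∧ ∀ k,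
      Nat.card {y // M.map (PadicInt.toZModPow k) *ᵥ y = 0} = pp ^ ∑ i, min k (v i) := by
  obtain ⟨U, V, d, a, b, e⟩ := snf h
  have a' := (isUnit_iff_isUnit_det _).1 a
  have b' := (isUnit_iff_isUnit_det _).1 b
  have e' := congrArg det e
  rw [det_mul, det_mul, det_diagonal] at e'
  have d0 : ∀ i, d i ≠ 0 := fun i z => mul_ne_zero h b'.ne_zero
    (by rw [e', Finset.prod_eq_zero (Finset.mem_univ i) z, mul_zero])
  choose v u hv using fun i =>
    IsDiscreteValuationRing.eq_unit_mul_pow_irreducible (d0 i) PadicInt.irreducible_p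
  refine ⟨v, (associated_mul_isUnit_left_iff b').1 ?_, fun k => ?_⟩
  · rw [e', funext hv, Finset.prod_mul_distrib, Finset.prod_pow_eq_pow_sum, ← mul_assoc]
    exact associated_unit_mul_left _ _ (a'.mul (IsUnit.prod_univ_iff.2 fun i => (u i).isUnit))
  let π := PadicInt.toZModPow (p := pp) k
  obtain ⟨W, w⟩ := b.map π.mapMatrix
  have i := (injective_iff_map_eq_zero' (U.map π).mulVecLin).1
    (mulVec_injective_of_isUnit (a.map π.mapMatrix))
  have q : {y : n → ZMod (pp ^ k) // ∀ i, y i ∈ (nsmulAddMonoidHom (pp ^ v i)).ker} ≃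
      {y // M.map π *ᵥ y = 0} := (toLinearEquiv' W.1 W.invertible).toEquiv.subtypeEquiv fun y => by
    show _ ↔ M.map π *ᵥ (W.1 *ᵥ y) = 0
    rw [w, mulVec_mulVec, RingHom.mapMatrix_apply, ← Matrix.map_mul, e, Matrix.map_mul,
      ← mulVec_mulVec, ← mulVecLin_apply, i, diagonal_map (map_zero _), funext_iff]
    refine forall_congr' fun j => ?_
    rw [mulVec_diagonal, hv, map_mul, mul_assoc, Pi.zero_apply,
      ((u j).isUnit.map π).mul_right_eq_zero, map_pow, map_natCast, ← Nat.cast_pow, ← nsmul_eq_mul]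
    rfl
  rw [← Nat.card_congr q, Nat.card_congr Equiv.subtypePiEquivPi, Nat.card_pi,
    ← Finset.prod_pow_eq_pow_sum]
  refine Finset.prod_congr rfl fun i _ => ?_
  refine (IsAddCyclic.card_nsmulAddMonoidHom_ker _ _).trans ?_
  rw [Nat.card_zmod]
  obtain l | l := le_total k (v i)
  · rw [min_eq_left l, Nat.gcd_eq_left (pow_dvd_pow _ l)]
  · rw [min_eq_right l, Nat.gcd_eq_right (pow_dvd_pow _ l)]

/-- a nonsingular matrix in each class -/
theorem per (M : Matrix n n ℤ_[pp]) (k : ℕ) : ∃ N : Matrix n n ℤ_[pp], N.det ≠ 0 ∧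
    N.map (PadicInt.toZModPow k) = M.map (PadicInt.toZModPow k) := by
  by_contra! c
  refine (-M).charpoly_monic.ne_zero (Polynomial.eq_zero_of_infinite_isRoot _
    (Set.infinite_of_injective_forall_mem (mul_right_injective₀ (pow_ne_zero k (Nat.cast_ne_zero.2 pp_prime.ne_zero : (pp : ℤ_[pp]) ≠ 0)))
      fun t => by_contra fun z => c _ (fun e => z ((eval_charpoly _ _).trans e)) ?_))
  have : PadicInt.toZModPow (p := pp) k (pp ^ k) = 0 := by
    rw [map_pow, map_natCast]
    exact_mod_cast ZMod.natCast_self (pp ^ k)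
  rw [sub_neg_eq_add, Matrix.map_add _ (map_add _), scalar_apply, diagonal_map (map_zero _),
    map_mul, this, zero_mul, diagonal_zero, zero_add]

end Ke

open Ke

/-- **KER** -/
theorem ker2 (n : Type) [Fintype n] [DecidableEq n] (M : Matrix n n ℤ_[pp]) (a k : ℕ) :
    ((pp : ℤ_[pp]) ^ a ∣ M.det → a ≤ k →
      pp ^ a ≤ Nat.card {y // M.map (PadicInt.toZModPow k) *ᵥ y = 0}) ∧
    (¬ (pp : ℤ_[pp]) ^ (a + 1) ∣ M.det →
      Nat.card {y // M.map (PadicInt.toZModPow k) *ᵥ y = 0} ≤ pp ^ a) := by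
  have i : Irreducible (pp : ℤ_[pp]) := PadicInt.irreducible_p
  have l := fun {a b} => pow_dvd_pow_iff (n := a) (m := b) i.ne_zero i.not_isUnit
  refine ⟨fun h ak => ?_, fun h => ?_⟩
  · obtain ⟨N, d, e⟩ := per M k
    obtain ⟨v, s, c⟩ := dg d
    have r : (pp : ℤ_[pp]) ^ k ∣ N.det - M.det := by
      have : PadicInt.toZModPow k (N.det - M.det) = 0 := by
        rw [map_sub, RingHom.map_det, RingHom.map_det, RingHom.mapMatrix_apply, e]
        exact sub_self _
      rwa [← RingHom.mem_ker, PadicInt.ker_toZModPow, Ideal.mem_span_singleton] at this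
    have := l.1 (((dvd_sub_left h).1 ((pow_dvd_pow _ ak).trans r)).trans s.dvd)
    rw [← e, c]
    refine Nat.pow_le_pow_right pp_prime.pos ?_
    by_cases z : ∃ i, k ≤ v i
    · obtain ⟨i, z⟩ := z
      exact ak.trans ((min_eq_left z).ge.trans (Finset.single_le_sum (f := fun i => min k (v i))
        (fun _ _ => Nat.zero_le _) (Finset.mem_univ i)))
    · exact this.trans (Finset.sum_le_sum fun i _ => le_min (not_le.1 (not_exists.1 z i)).le le_rfl)
  · obtain ⟨v, s, c⟩ := dg (fun z => h (z ▸ dvd_zero _))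
    rw [c]
    exact Nat.pow_le_pow_right pp_prime.pos ((Finset.sum_le_sum fun i _ => min_le_right _ _).trans
      (Nat.lt_succ_iff.1 (not_le.1 fun z => h ((l.2 z).trans s.symm.dvd))))

/-- **row KER** -/
theorem ker : F.KER := fun n _ _ M a k => (ker2 n M a k).1

end Vale.Agent.P014Y.Kx
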