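import Vale.Agent.P014U.Bt.Defs
import Vale.Agent.P014T.Kx.St

/-! # P014Y, block K: the words which do not depend on the frame -/

set_option autoImplicit false
set_option linter.all false

open NumberField
open scoped Classical

noncomputable section

namespace Vale.Agent.P014Y.Kx

export Vale.Agent.P014T.Kx (Tw rs)

open Vale.Agent.P014U
open Vale.Agent.P022 (Qb GQ IsConj)
open Vale.Agent.P022K.G2 (In)
open Vale.Agent.P022D.W (dec)
open Vale.Agent.P022E.GW (Ov)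
open P004M.TE (Pt ga)
open P004S (nu)
open Bt (T2 Z0 Zl Km Zs Zk)
open P014T.Wm (Fx)

variable [Pp]

section words

variable (A B : ℤ)

/-- the number of points of order a power of `pp` which are fixed by `D` -/
def tl (D : Subgroup GQ) : ℕ := Nat.card ↥(T2 A B ⊓ Fx A B D)

/-- division points of rational points -/
def Dv : AddSubgroup (Pt A B) where
  carrier := {Q | ∃ k : ℕ, pp ^ k • Q ∈ Fx A B ⊤}
  zero_mem' := ⟨0, by simp⟩
  add_mem' := fun ⟨k, a⟩ ⟨j, b⟩ => ⟨k + j, by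
    rw [nsmul_add, pow_add, mul_nsmul, mul_nsmul']
    exact add_mem (nsmul_mem a _) (nsmul_mem b _)⟩
  neg_mem' := fun ⟨k, a⟩ => ⟨k, by rw [neg_nsmul]; exact neg_mem a⟩

/-- the index of the rational points in their local division points -/
def jx (D : Subgroup GQ) : ℕ := (Fx A B ⊤).relIndex (Dv A B ⊓ Fx A B D)

/-- the order of the primary part of the Tate-Shafarevich group -/
def sh (S : Finset ℕ) (c : GQ) (P : ℕ → Ideal (𝓞 Qb)) : ℕ := (Zk A B S c).relIndex (Zs A B S c P)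

/-- the Kummer condition at the primes of `U` -/
def ZU (S : Finset ℕ) (c : GQ) (P : ℕ → Ideal (𝓞 Qb)) (U : Finset ℕ) :
    AddSubgroup (GQ → Pt A B) := Z0 A B S c ⊓ ⨅ p ∈ U, Km A B (dec (P p))

/-- `S` contains the bad primes, `P` chooses places -/
structure Pl (S : Finset ℕ) (P : ℕ → Ideal (𝓞 Qb)) : Prop where
  disc : 4 * A ^ 3 + 27 * B ^ 2 ≠ 0
  ov : ∀ p ∈ S, Ov p (P p)
  bad : ∀ l : ℕ, l.Prime → l ∉ S → ¬ (l : ℤ) ∣ 2 * pp * (4 * A ^ 3 + 27 * B ^ 2)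

/-- `sh` has the value `s` for all larger sets of primes -/
def Sh (S : Finset ℕ) (c : GQ) (s : ℕ) : Prop := ∀ S' P, S ⊆ S' → Pl A B S' P → sh A B S' c P = s

/-- cocycles of `Γ` (extended by zero), unramified outside `S` -/
def ZK (Γ : Subgroup GQ) (S : Finset ℕ) : AddSubgroup (GQ → Pt A B) := Zl A B Γ ⊓
  { carrier := {x | ∀ g, g ∉ Γ ∨ g ∈ In S → x g = 0}
    zero_mem' := fun _ _ => rfl
    add_mem' := fun a b g h => by rw [Pi.add_apply, a g h, b g h, add_zero]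
    neg_mem' := fun a g h => by rw [Pi.neg_apply, a g h, neg_zero] }

/-- the Kummer condition at the places over `U` -/
def ZP (Γ : Subgroup GQ) (S : Finset ℕ) (P : ℕ → Ideal (𝓞 Qb)) (U : Finset ℕ) :
    AddSubgroup (GQ → Pt A B) := ZK A B Γ S ⊓ ⨅ p ∈ U, Km A B (dec (P p))

/-- zero at the place over `pp`, Kummer at the places over `σ` -/
def ZW (Γ : Subgroup GQ) (S : Finset ℕ) (P : ℕ → Ideal (𝓞 Qb)) (σ : Finset ℕ) :
    AddSubgroup (GQ → Pt A B) := ZP A B Γ S P σ ⊓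
  { carrier := {x | ∀ g ∈ dec (P pp), x g = 0}
    zero_mem' := fun _ _ => rfl
    add_mem' := fun a b g h => by rw [Pi.add_apply, a g h, b g h, add_zero]
    neg_mem' := fun a g h => by rw [Pi.neg_apply, a g h, neg_zero] }

end words

theorem Pl.two {A B : ℤ} {S : Finset ℕ} {P : ℕ → Ideal (𝓞 Qb)} (h : Pl A B S P) : pp ∈ S :=
  by_contra fun n => h.bad pp pp_prime n ((dvd_mul_left _ _).mul_right _)

/-! ### the easy half of the duality over `ℚ` -/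

def UP1 : Prop := ∀ A B S P c, Pl A B S P → IsConj c → (∃ y ∈ Fx A B ⊤, ¬ IsOfFinAddOrder y) →
  jx A B (dec (P pp)) ≠ 0 → (Zs A B S c P).relIndex (Z0 A B S c) ≠ 0 ∧
  (Zs A B S c P).relIndex (Z0 A B S c) ≤ jx A B (dec (P pp)) * ∏ p ∈ S.erase pp, tl A B (dec (P p))

def UP0 : Prop := ∀ A B S P c U, Pl A B S P → IsConj c → U ⊆ S → pp ∈ U → U ≠ S →
  (Zs A B S c P).relIndex (ZU A B S c P U) ≠ 0 ∧
    (Zs A B S c P).relIndex (ZU A B S c P U) * tl A B ⊤ ≤ ∏ p ∈ S \ U, tl A B (dec (P p))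

/-! ### from `K` to `ℚ` -/

/-- a curve, its twist by an imaginary quadratic field (in any order), the places -/
structure Su where
  A : ℤ
  B : ℤ
  A' : ℤ
  B' : ℤ
  d : ℤ
  t : Pt A B ≃+ Pt A' B'
  Γ : Subgroup GQ
  c : GQ
  S : Finset ℕ
  S₁ : Finset ℕ
  S₀ : Finset ℕ
  σ : Finset ℕ
  P : ℕ → Ideal (𝓞 Qb)
  tw : Tw d t
  mem : ∀ g, g ∈ Γ ↔ nu d g = 0
  cc : IsConj c
  out : c ∉ Γ
  p1 : Pl A B S₁ P
  p0 : Pl A' B' S₀ P
  l1 : S ⊆ S₁
  l0 : S ⊆ S₀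
  sub : σ ⊆ S.erase pp
  le : ∀ p ∈ insert pp σ, dec (P p) ≤ Γ
  ne : insert pp σ ≠ S₀

/-- **the bound for the strict group over `K`** -/
def KB : Prop := ∀ s : Su, (∃ y ∈ Fx s.A s.B ⊤, ¬ IsOfFinAddOrder y) → Finite (Fx s.A' s.B' ⊤) →
  jx s.A s.B (dec (s.P pp)) ≠ 0 → sh s.A s.B s.S₁ s.c s.P ≠ 0 → sh s.A' s.B' s.S₀ s.c s.P ≠ 0 →
  Finite (ZW s.A s.B s.Γ s.S s.P s.σ) ∧
  (Nat.card (ZW s.A s.B s.Γ s.S s.P s.σ) * ∏ p ∈ s.σ, tl s.A s.B (dec (s.P p))) *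
      tl s.A' s.B' ⊤ ^ 2 ≤
    jx s.A s.B (dec (s.P pp)) ^ 2 * sh s.A s.B s.S₁ s.c s.P * sh s.A' s.B' s.S₀ s.c s.P *
    (∏ p ∈ s.S₁.erase pp, tl s.A s.B (dec (s.P p))) * ∏ p ∈ s.S₀.erase pp, tl s.A' s.B' (dec (s.P p))

end Vale.Agent.P014Y.Kx
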