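import Vale.Agent.P014Y.Kx.Up0
import Vale.Agent.P014Y.Kx.Wd
import Vale.Agent.P014T.Kx.Upc
import Vale.Agent.P014U.Cp.Nn
import Vale.Agent.P014U.Lc.Fx

/-!
# P014Y, block K: upper bounds for the index of the Selmer part
-/

set_option linter.all false

open NumberField
open scoped Classical

noncomputable section

namespace Vale.Agent.P014Y.Kx.Up

open Vale.Agent.P014U
open Vale.Agent.P022 (Qb GQ IsConj)
open Vale.Agent.P022E.GW (Ov)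
open Vale.Agent.P022D.W (dec)
open P004M.TE (Pt ga)
open Vale.Agent.P014U.X4S.Ga (K)
open AddSubgroup Vale.Agent.P014U.Bt
open Vale.Agent.P014U.Ba (Tp Zf)
open P014T.Wm (Fx)
open P014T.Kx.Up (md disc)

variable [Pp] {A B : ℤ} {S V : Finset ℕ} {c : GQ} {P : ℕ → Ideal (𝓞 Qb)} {D : Subgroup GQ}
  {pl : ∀ p : ℕ, Fx A B (dec (P p)) →+ Zl A B (dec (P p)) →+ Ba.Dv} {Z : AddSubgroup (GQ → Pt A B)}

theorem top_le (D : Subgroup GQ) : Fx A B ⊤ ≤ Fx A B D := fun _ h g _ => h g trivial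

/-- local pairings with the Kummer condition as kernel and the reciprocity law -/
structure Lp (S : Finset ℕ) (c : GQ) (P : ℕ → Ideal (𝓞 Qb))
    (pl : ∀ p : ℕ, Fx A B (dec (P p)) →+ Zl A B (dec (P p)) →+ Ba.Dv) : Prop where
  nn : ∀ p ∈ S, ∀ y, (∀ x, pl p x y = 0) ↔ y.1 ∈ Km A B (dec (P p))
  rr : ∀ (x : Fx A B ⊤) (y : Z0 A B S c),
    ∑ p ∈ S, pl p (inclusion (top_le _) x) (inclusion (Z0_le S c _) y) = 0

theorem t2_eq : T2 A B = Tp (Pt A B) := rfl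

theorem tor (h : Z ≤ Z0 A B S c) (z : Z) : ∃ k : ℕ, pp ^ k • z = 0 :=
  (h z.2).2.2.1.imp fun _ a => Subtype.ext (funext a)

section

variable (L : Lp S c P pl) (h : Z ≤ Z0 A B S c) (hV : V ⊆ S)
  (km : ∀ z ∈ Z, ∀ p ∈ S, p ∉ V → z ∈ Km A B (dec (P p)))
include L hV km

theorem zf_eq : Zf (PR V fun p => (pl p).compl₂ (inclusion (h.trans (Z0_le S c _)))) =
    (Zs A B S c P).addSubgroupOf Z :=
  AddSubgroup.ext fun z => zf_iff.trans ⟨fun a => mem_Zs.2 ⟨h z.2, fun p m => if v : p ∈ V then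
    (L.nn p m (inclusion (h.trans (Z0_le S c _)) z)).1 (a p v) else km z z.2 p m v⟩,
      fun a p v => (L.nn p (hV v) _).2 ((mem_Zs.1 a).2 p (hV v))⟩

theorem rr (x : Fx A B ⊤) (z : Z) : ∑ p ∈ V, (pl p).compl₂ (inclusion (h.trans (Z0_le S c _)))
    (inclusion (top_le _) x) z = 0 :=
  (Finset.sum_subset hV fun p m v => (L.nn p m _).2 (km z z.2 p m v) _).trans (L.rr x (inclusion h z))

include h in
/-- **UP0** -/
theorem up_zero (ne : V.Nonempty) (lo : ∀ p ∈ V, Lo (Fx A B (dec (P p)))) :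
    (Zs A B S c P).relIndex Z * Nat.card ↥(T2 A B ⊓ Fx A B ⊤) ∣
      ∏ p ∈ V, Nat.card ↥(T2 A B ⊓ Fx A B (dec (P p))) := by
  have k := pi0 (fun _ => top_le _) (tor h) (rr L h hV km) ne lo
  rwa [zf_eq L h hV km] at k

include h in
/-- **UP1** -/
theorem up_one {q : ℕ} (m : q ∈ V) (lo : ∀ p ∈ V.erase q, Lo (Fx A B (dec (P p))))
    {lg : Fx A B (dec (P q)) →+ K} {y0 : Fx A B (dec (P q))} (l : Lg lg y0) (x : Fx A B ⊤)
    (n : lg (inclusion (top_le _) x) ≠ 0)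
    (jx : (Fx A B ⊤).relIndex (Sat (Fx A B ⊤) ⊓ Fx A B (dec (P q))) ≠ 0) :
    (Zs A B S c P).relIndex Z ∣ (Fx A B ⊤).relIndex (Sat (Fx A B ⊤) ⊓ Fx A B (dec (P q))) *
      ∏ p ∈ V.erase q, Nat.card ↥(T2 A B ⊓ Fx A B (dec (P p))) := by
  have k := pi1 (fun _ => top_le _) (tor h) (rr L h hV km) m lo l x n jx
  rwa [zf_eq L h hV km] at k

end

variable {p : ℕ} {Q : Ideal (𝓞 Qb)}

theorem lo (hD : 4 * A ^ 3 + 27 * B ^ 2 ≠ 0) (o : Ov p Q) (h : p ≠ pp) : Lo (Fx A B (dec Q)) := by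
  have := Cp.fin_tp (A := A) (B := B) (by exact_mod_cast hD) o
  refine ⟨Finite.of_injective (β := Tp (Fx A B (dec Q)))
    (fun ⟨t, a, b⟩ => ⟨⟨t, b⟩, Exists.imp (fun _ a => Subtype.ext a) a⟩)
      fun ⟨_, _, _⟩ ⟨_, _, _⟩ e => Subtype.ext (congrArg (·.1.1) e), fun y m => ?_⟩
  obtain ⟨t, ⟨k, b⟩, y', e⟩ := (Lc.odd (disc hD) (md A B) o h).2 ⟨y, m⟩
  exact ⟨t, ⟨⟨k, congrArg Subtype.val b⟩, t.2⟩, y', y'.2, congrArg Subtype.val e⟩

theorem ex_lp (h : Pl A B S P) (hc : IsConj c) : ∃ pl, Lp (A := A) (B := B) S c P pl := by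
  have hD : 4 * (A : ℚ) ^ 3 + 27 * (B : ℚ) ^ 2 ≠ 0 := by exact_mod_cast h.disc
  refine ⟨fun p => if m : p ∈ S then Cp.pr (Ki.pr hD) (Cp.ivP (h.ov p m)) else 0, fun p m y => ?_,
    fun x y => ?_⟩
  · simp only [dif_pos m]
    exact Cp.nn hD (h.ov p m) _ y
  · rw [← Finset.sum_coe_sort, ← Cp.rr hD (Ki.pr hD) (fun l m => by_contra fun n => ?_) P h.ov hc x.2 y.2]
    · exact Finset.sum_congr rfl fun p _ => by rw [dif_pos p.2]; rfl
    · have a := Nat.prime_of_mem_primeFactors m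
      exact h.bad l a n (Int.natCast_dvd.2 (Nat.dvd_of_mem_primeFactors m))

theorem prod_ne {V : Finset ℕ} (h : ∀ p ∈ V, Lo (Fx A B (dec (P p)))) :
    ∏ p ∈ V, tl A B (dec (P p)) ≠ 0 :=
  Finset.prod_ne_zero_iff.2 fun p m => Nat.card_ne_zero.2 ⟨⟨0⟩, (h p m).fin⟩

theorem up1 : UP1 := fun A B S P c h hc ⟨y, m, n⟩ j => by
  obtain ⟨pl, L⟩ := ex_lp h hc
  obtain ⟨ι, hι⟩ := Ah.ex_ind (h.ov pp h.two)
  obtain ⟨lg, y0, -, k, a1, a2, a3, -⟩ := Lc.two (disc h.disc) (md A B) hι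
  have l : ∀ p ∈ S.erase pp, Lo (Fx A B (dec (P p))) := fun p m =>
    lo h.disc (h.ov p (Finset.mem_of_mem_erase m)) (Finset.ne_of_mem_erase m)
  have e : Sat (Fx A B ⊤) = Dv A B := AddSubgroup.ext fun _ => mem_Sat
  have d := up_one L le_rfl le_rfl (fun _ _ _ a b => (b a).elim) h.two l
    ⟨Cp.fin_tp (by exact_mod_cast h.disc) (h.ov pp h.two), a1, a2, a3⟩ ⟨y, m⟩
    (fun a => n ((AddSubgroup.subtype _).isOfFinAddOrder ((k _).1 a))) (e ▸ j)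
  rw [e] at d
  have z := mul_ne_zero j (prod_ne l)
  exact ⟨ne_zero_of_dvd_ne_zero z d, Nat.le_of_dvd (Nat.pos_of_ne_zero z) d⟩

theorem up0' : UP0 := fun A B S P c U h hc le m n => by
  obtain ⟨pl, L⟩ := ex_lp h hc
  have mz : ∀ {x}, x ∈ ZU A B S c P U ↔ x ∈ Z0 A B S c ∧ ∀ p ∈ U, x ∈ Km A B (dec (P p)) := by
    simp [ZU, AddSubgroup.mem_iInf]
  have l : ∀ p ∈ S \ U, Lo (Fx A B (dec (P p))) := fun p a =>
    lo h.disc (h.ov p (Finset.mem_sdiff.1 a).1) fun e => (Finset.mem_sdiff.1 a).2 (e ▸ m)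
  have d := up_zero L (Z := ZU A B S c P U) inf_le_left Finset.sdiff_subset (fun z a p b v =>
    (mz.1 a).2 p (by_contra fun k => v (Finset.mem_sdiff.2 ⟨b, k⟩)))
    (Finset.sdiff_nonempty.2 fun k => n (le.antisymm k)) l
  exact ⟨left_ne_zero_of_mul (ne_zero_of_dvd_ne_zero (prod_ne l) d),
    Nat.le_of_dvd (Nat.pos_of_ne_zero (prod_ne l)) d⟩

end Vale.Agent.P014Y.Kx.Up
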