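import Vale.Agent.P014U.Ba.Dat

/-!
# P014Y, block K: upper bounds for the index of the Selmer part, abstract algebra
-/

set_option linter.all false

open scoped Classical

noncomputable section

namespace Vale.Agent.P014Y.Kx.Up

open Vale.Agent.P014U Vale.Agent.P014U.X4S.Ga Vale.Agent.P014U.Ba

variable [Pp]

variable {Y Z : Type} [AddCommGroup Y] [AddCommGroup Z] {pr : Y →+ Z →+ Dv} {R T : AddSubgroup Y}

/-- the saturation -/
def Sat (R : AddSubgroup Y) : AddSubgroup Y := (Tp (Y ⧸ R)).comap (QuotientAddGroup.mk' R)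

theorem mem_Sat {y : Y} : y ∈ Sat R ↔ ∃ k : ℕ, pp ^ k • y ∈ R :=
  exists_congr fun k => QuotientAddGroup.eq_zero_iff (pp ^ k • y)

/-- `T` is dense -/
def Den (T : AddSubgroup Y) : Prop := ∀ (n : ℕ) y, ∃ t ∈ T, ∃ y', y = t + pp ^ n • y'

/-- **the core** -/
theorem up (tor : ∀ z : Z, ∃ k : ℕ, pp ^ k • z = 0) (rc : ∀ r ∈ R, ∀ z, pr r z = 0)
    (den : Den (Sat R)) (fin : R.relIndex (Sat R) ≠ 0) : (Zf pr).index ∣ R.relIndex (Sat R) := by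
  have : Finite (Sat R ⧸ R.addSubgroupOf (Sat R)) := Nat.finite_of_card_ne_zero fin
  let p : Sat R ⧸ R.addSubgroupOf (Sat R) →+ Z →+ Dv :=
    QuotientAddGroup.lift _ (pr.comp (Sat R).subtype) fun r a => AddMonoidHom.ext (rc r a)
  have e : Zf pr = p.flip.ker := AddSubgroup.ext fun z => mem_Zf.trans ⟨fun a =>
    AddMonoidHom.ext fun t => QuotientAddGroup.induction_on t fun t => a t, fun a y => by
      obtain ⟨k, hk⟩ := tor z
      obtain ⟨t, m, y, rfl⟩ := den k y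
      rw [map_add, AddMonoidHom.add_apply, pr_swap, hk, map_zero, add_zero]
      exact DFunLike.congr_fun a (QuotientAddGroup.mk ⟨t, m⟩)⟩
  rw [e, (fd (fun t => QuotientAddGroup.induction_on t fun t => (mem_Sat.1 t.2).imp fun k a =>
    (QuotientAddGroup.eq_zero_iff (pp ^ k • t)).2 a) p).1]
  exact AddSubgroup.index_dvd_card _

theorem Tp_le : Tp Y ≤ Sat R := fun _ ⟨k, a⟩ => mem_Sat.2 ⟨k, a ▸ zero_mem _⟩

theorem le_Sat : R ≤ Sat R := fun _ a => mem_Sat.2 ⟨0, by rwa [pow_zero, one_smul]⟩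

theorem den_of (h : ∀ y, ∃ t ∈ T, ∃ y', y = t + pp • y') : Den T := fun n y => by
  induction n with
  | zero => exact ⟨0, zero_mem _, y, by simp⟩
  | succ n i =>
    obtain ⟨t, m, y, rfl⟩ := i
    obtain ⟨t', m', y, rfl⟩ := h y
    exact ⟨t + pp ^ n • t', add_mem m (nsmul_mem m' _), y, by module⟩

/-- **rank zero** -/
theorem up0 [Finite (Tp Y)] (tor : ∀ z : Z, ∃ k : ℕ, pp ^ k • z = 0) (rc : ∀ r ∈ R, ∀ z, pr r z = 0)
    (h : ∀ y, ∃ t ∈ Tp Y, ∃ y', y = t + pp • y') :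
    (Zf pr).index * Nat.card ↥(R ⊓ Tp Y) ∣ Nat.card (Tp Y) := by
  have e : Sat (R ⊓ Tp Y) = Tp Y := le_antisymm (fun y a => by
    obtain ⟨k, -, j, a⟩ := mem_Sat.1 a
    exact ⟨j + k, by rwa [pow_add, mul_smul]⟩) Tp_le
  have := up (pr := pr) (R := R ⊓ Tp Y) tor (fun r a => rc r a.1) (e.symm ▸ den_of h)
    (e.symm ▸ AddSubgroup.index_ne_zero_of_finite)
  rw [e] at this
  rw [← AddSubgroup.card_mul_index ((R ⊓ Tp Y).addSubgroupOf (Tp Y)), mul_comm, Nat.card_congr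
    (AddSubgroup.addSubgroupOfEquivOfLe (inf_le_right : R ⊓ Tp Y ≤ Tp Y)).toEquiv]
  exact mul_dvd_mul_left _ this

/-- a logarithm -/
structure Lg (lg : Y →+ K) (y0 : Y) : Prop where
  fin : Finite (Tp Y)
  ne : lg y0 ≠ 0
  bd : ∀ y, ‖lg y‖ ≤ ‖lg y0‖
  sat : ∀ y, ‖lg y‖ < ‖lg y0‖ → ∃ t ∈ Tp Y, ∃ y', y = t + pp • y'

theorem ex_m {a b : K} (ha : a ≠ 0) (h : ‖a‖ ≤ ‖b‖) : ∃ m : ℕ, ‖a‖ * pp ^ m = ‖b‖ := by
  have hb : b ≠ 0 := norm_pos_iff.1 ((norm_pos_iff.2 ha).trans_le h)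
  rw [Padic.norm_eq_zpow_neg_valuation ha, Padic.norm_eq_zpow_neg_valuation hb] at *
  obtain ⟨m, e⟩ := Int.le.dest ((zpow_le_zpow_iff_right₀ one_r).1 h)
  exact ⟨m, by rw [← e, zpow_add₀ pos_r.ne', zpow_natCast]⟩

theorem Lg.den {lg : Y →+ K} {y0 r : Y} (h : Lg lg y0) (m : r ∈ R) (n : lg r ≠ 0) : Den (Sat R) := by
  have d : Dat (0 : Y →+ Unit →+ Dv) ⊤ lg y0 := ⟨fun _ => ⟨0, rfl⟩, h.fin, fun _ _ _ => rfl,
    fun _ _ _ => trivial, fun y _ => ⟨y, trivial, rfl⟩, h.ne, h.bd, h.sat⟩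
  obtain ⟨j, e⟩ := ex_m n (h.bd r)
  obtain ⟨_, t, a, y', b⟩ := d.gen (j + 1) r
  obtain ⟨c, ⟨u, v, w⟩, rfl⟩ := d.coef e j.lt_succ_self a b
  have k : c • y0 + pp • y' ∈ Sat R := by
    obtain ⟨i, k⟩ := mem_Sat.1 (sub_mem (le_Sat m) (Tp_le a))
    exact mem_Sat.2 ⟨i + j, by rwa [show pp ^ (i + j) • _ = pp ^ i • (r - t) by rw [b]; module]⟩
  refine den_of fun y => ?_
  obtain ⟨n, t, a, y, rfl⟩ := d.gen1 y
  exact ⟨_, add_mem (zsmul_mem k (n * u)) (Tp_le a), y + n • (v • y0 - u • y'), by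
    linear_combination (norm := module) (-n) • congrArg (· • y0) w⟩

section prod

open AddSubgroup

variable {M : Type} [AddCommGroup M] {H : ℕ → AddSubgroup M} {G : AddSubgroup M} {V : Finset ℕ}
  {pl : ∀ p, H p →+ Z →+ Dv}

variable (H V) in
/-- the local points -/
abbrev Yv : Type := ∀ p : V, H p

variable (V) in
/-- the diagonal -/
def dg (le : ∀ p, G ≤ H p) : G →+ Yv H V := Pi.addMonoidHom fun _ => inclusion (le _)

variable (V pl) in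
/-- the sum of the local pairings -/
def PR : Yv H V →+ Z →+ Dv := ∑ p : V, (pl p).comp (Pi.evalAddMonoidHom _ p)

theorem PR_apply (y : Yv H V) (z : Z) : PR V pl y z = ∑ p : V, pl p (y p) z := by
  simp [PR, AddMonoidHom.finset_sum_apply]

theorem zf_iff {z : Z} : z ∈ Zf (PR V pl) ↔ ∀ p ∈ V, ∀ x, pl p x z = 0 := by
  refine mem_Zf.trans ⟨fun a p v x => ?_, fun a y => ?_⟩
  · have := a (Pi.single ⟨p, v⟩ x)
    rwa [PR_apply, Fintype.sum_eq_single ⟨p, v⟩ fun q n => by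
      rw [Pi.single_eq_of_ne n, map_zero, AddMonoidHom.zero_apply], Pi.single_eq_same] at this
  · rw [PR_apply]
    exact Finset.sum_eq_zero fun p _ => a p p.2 _

theorem tp_iff {y : Yv H V} : y ∈ Tp (Yv H V) ↔ ∀ p, (y p).1 ∈ Tp M := by
  refine ⟨fun ⟨k, a⟩ p => ⟨k, congrArg (fun z => (z p).1) a⟩, fun a => ?_⟩
  choose k a using a
  exact ⟨∑ p, k p, funext fun p => Subtype.ext (pow_up
    (Finset.single_le_sum (fun _ _ => Nat.zero_le _) (Finset.mem_univ p)) (a p))⟩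

/-- the torsion of the product -/
def tpe : Tp (Yv H V) ≃ ∀ p : V, ↥(Tp M ⊓ H p) where
  toFun y p := ⟨y.1 p, tp_iff.1 y.2 p, (y.1 p).2⟩
  invFun y := ⟨fun p => ⟨y p, (y p).2.2⟩, tp_iff.2 fun p => (y p).2.1⟩

theorem card_tp : Nat.card (Tp (Yv H V)) = ∏ p ∈ V, Nat.card ↥(Tp M ⊓ H p) := by
  rw [Nat.card_congr tpe, Nat.card_pi, Finset.prod_coe_sort V fun p => Nat.card ↥(Tp M ⊓ H p)]

/-- the local points at an odd prime -/
structure Lo (H : AddSubgroup M) : Prop where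
  fin : Finite ↥(Tp M ⊓ H)
  sat : ∀ y ∈ H, ∃ t ∈ Tp M ⊓ H, ∃ y' ∈ H, y = t + pp • y'

variable (le : ∀ p, G ≤ H p)

theorem sat_dvd {q : ℕ} (m : q ∈ V) : (dg V le).range.relIndex (Sat (dg V le).range) ∣
    G.relIndex (Sat G ⊓ H q) * ∏ p ∈ V.erase q, Nat.card ↥(Tp M ⊓ H p) := by
  let f : Yv H V →+ M := (AddSubgroup.subtype _).comp (Pi.evalAddMonoidHom _ ⟨q, m⟩)
  let g : Yv H V →+ V.erase q → M := Pi.addMonoidHom fun p =>
    (AddSubgroup.subtype _).comp (Pi.evalAddMonoidHom (fun p : V => H p) ⟨p, Finset.mem_of_mem_erase p.2⟩) - f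
  set R := (dg V le).range with hR
  have l1 : R ≤ G.comap f ⊓ Sat R := le_inf (by rintro _ ⟨x, rfl⟩; exact x.2) le_Sat
  rw [← relIndex_mul_relIndex _ _ _ l1 inf_le_right, mul_comm, inf_relIndex_right, relIndex_comap]
  refine mul_dvd_mul ?_ ?_
  · refine Dvd.intro _ (relIndex_mul_relIndex _ _ _ (fun x a => ⟨dg V le ⟨x, a⟩, le_Sat ⟨_, rfl⟩, rfl⟩) ?_)
    rintro _ ⟨y, a, rfl⟩
    obtain ⟨k, x, e⟩ := mem_Sat.1 a
    exact ⟨mem_Sat.2 ⟨k, (congrArg f e).trans (map_nsmul ..) ▸ x.2⟩, (y ⟨q, m⟩).2⟩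
  · have e : R = g.ker ⊓ (G.comap f ⊓ Sat R) := le_antisymm
      (le_inf (by rintro _ ⟨x, rfl⟩; exact funext fun _ => sub_self _) l1) fun y ⟨a, b, _⟩ =>
        ⟨⟨_, b⟩, funext fun p => Subtype.ext (by
          by_cases n : p.1 = q
          · obtain ⟨p, _⟩ := p
            subst n
            rfl
          · exact (sub_eq_zero.1 (congrFun a ⟨p, Finset.mem_erase.2 ⟨n, p.2⟩⟩)).symm)⟩
    rw [← Finset.prod_coe_sort, ← Nat.card_pi, ← Nat.card_congr (Equiv.subtypePiEquivPi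
      (p := fun (p : V.erase q) x => x ∈ Tp M ⊓ H p))]
    rw [show R.relIndex _ = _ from (congrArg (relIndex · _) e).trans (inf_relIndex_right _ _),
      relIndex_ker]
    refine (card_dvd_of_le (K := .pi Set.univ fun p : V.erase q => Tp M ⊓ H p)
      ?_).trans (dvd_of_eq (Nat.card_congr (Equiv.subtypeEquivRight fun x => by simp [mem_pi])))
    rintro _ ⟨y, ⟨a, b⟩, rfl⟩ p -
    obtain ⟨k, x, e⟩ := mem_Sat.1 b
    refine ⟨⟨k, ?_⟩, (H p).sub_mem (y ⟨p, Finset.mem_of_mem_erase p.2⟩).2 (le _ a)⟩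
    rw [← Pi.smul_apply, ← map_nsmul, ← e]
    exact sub_self _

variable (tor : ∀ z : Z, ∃ k : ℕ, pp ^ k • z = 0)
  (rr : ∀ (x : G) z, ∑ p ∈ V, pl p (inclusion (le p) x) z = 0)
include rr

theorem rc (r : Yv H V) (m : r ∈ (dg V le).range) (z : Z) : PR V pl r z = 0 := by
  obtain ⟨x, rfl⟩ := m
  rw [PR_apply, ← rr x z, ← Finset.sum_coe_sort V]
  rfl

include tor

theorem pi0 (ne : V.Nonempty) (lo : ∀ p ∈ V, Lo (H p)) :
    (Zf (PR V pl)).index * Nat.card ↥(Tp M ⊓ G) ∣ ∏ p ∈ V, Nat.card ↥(Tp M ⊓ H p) := by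
  have := fun p : V => (lo p p.2).fin
  have := Finite.of_equiv _ (tpe (H := H) (V := V)).symm
  have k := up0 tor (rc le rr) fun y => by
    choose t a y' b e using fun p : V => (lo p p.2).sat _ (y p).2
    exact ⟨fun p => ⟨t p, (a p).2⟩, tp_iff.2 fun p => (a p).1, fun p => ⟨y' p, b p⟩,
      funext fun p => Subtype.ext (e p)⟩
  obtain ⟨p, m⟩ := ne
  rwa [card_tp, ← Nat.card_congr (Equiv.ofBijective
    (fun x : ↥(Tp M ⊓ G) => (⟨dg V le ⟨x, x.2.2⟩, ⟨_, rfl⟩, tp_iff.2 fun _ => x.2.1⟩ :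
      ↥((dg V le).range ⊓ Tp (Yv H V))))
    ⟨fun x y e => Subtype.ext (congrArg (fun z => (z.1 ⟨p, m⟩).1) e),
      fun ⟨_, ⟨x, rfl⟩, b⟩ => ⟨⟨x, tp_iff.1 b ⟨p, m⟩, x.2⟩, rfl⟩⟩)] at k

theorem pi1 {q : ℕ} (m : q ∈ V) (lo : ∀ p ∈ V.erase q, Lo (H p)) {lg : H q →+ K} {y0 : H q}
    (l : Lg lg y0) (x : G) (n : lg (inclusion (le q) x) ≠ 0) (jx : G.relIndex (Sat G ⊓ H q) ≠ 0) :
    (Zf (PR V pl)).index ∣ G.relIndex (Sat G ⊓ H q) * ∏ p ∈ V.erase q, Nat.card ↥(Tp M ⊓ H p) := by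
  have f2 : Finite ↥(Tp M ⊓ H q) := have := l.fin
    Finite.of_injective (β := Tp (H q))
      (fun ⟨t, a, b⟩ => ⟨⟨t, b⟩, Exists.imp (fun _ a => Subtype.ext a) a⟩)
      fun ⟨_, _, _⟩ ⟨_, _, _⟩ e => Subtype.ext (congrArg (·.1.1) e)
  have : ∀ p : V, Finite ↥(Tp M ⊓ H p) := fun p => by
    by_cases n : p.1 = q
    · rwa [n]
    · exact (lo p (Finset.mem_erase.2 ⟨n, p.2⟩)).fin
  have l' : Lg (Y := Yv H V) (lg.comp (Pi.evalAddMonoidHom (fun p : V => H p) ⟨q, m⟩)) (Pi.single ⟨q, m⟩ y0) :=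
    ⟨Finite.of_equiv _ tpe.symm, by simpa using l.ne, fun y => by simpa using l.bd _, fun y a => by
      have : ∀ p : V, ∃ t ∈ Tp M ⊓ H p, ∃ y' ∈ H p, (y p).1 = t + pp • y' := fun ⟨p, hp⟩ => by
        by_cases n : p = q
        · subst n
          obtain ⟨t, ⟨k, b⟩, y', e⟩ := l.sat (y ⟨p, hp⟩) (by simpa using a)
          exact ⟨t, ⟨⟨k, congrArg Subtype.val b⟩, t.2⟩, y', y'.2, congrArg Subtype.val e⟩
        · exact (lo p (Finset.mem_erase.2 ⟨n, hp⟩)).sat _ (y ⟨p, hp⟩).2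
      choose t a y' b e using this
      exact ⟨fun p => ⟨t p, (a p).2⟩, tp_iff.2 fun p => (a p).1, fun p => ⟨y' p, b p⟩,
        funext fun p => Subtype.ext (e p)⟩⟩
  have d := sat_dvd le m
  exact (up tor (rc le rr) (l'.den (r := dg V le x) ⟨x, rfl⟩ n) (ne_zero_of_dvd_ne_zero (mul_ne_zero jx
    (Finset.prod_ne_zero_iff.2 fun p a => have := (lo p a).fin; Nat.card_pos.ne')) d)).trans d

end prod

end Vale.Agent.P014Y.Kx.Up
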